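import Claimed.Agent.R322.Pack058
import Claimed.Agent.R322.Pack059
import Claimed.Agent.R322.Fit.Pde.MssW
import Claimed.Agent.R322.Fit.Pde.Adj
import Claimed.Agent.R322.Fit.Pde.Moll

/-!
# Row 322, Fit/Corr: the analytic core of one step of AE Lemma 7.1 (no varifolds): definitions   (architect helper281)

`μ` is ANY measure on `E (m+n)` (in the application `Fits.muc W R t`), `f : E m → E n` a global map, `z = Fits.zet f`, `π = prH`.

* `vd f y = √g = Tube.vdens (Df y)`;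
* `kap f a y = ⟪mssOp f y, Df (G e_a)⟫`  (`= - (1/√g) ∂_b (√g G^{ab})`);
* `rW f ζ = ∑_a ∂_a (kap f a • ζ)`;
* `JacB μ f x r ℓ b`  : the conclusion of `Fits.jacobi_scale` (weak Jacobi estimate with constant `b`);
* `MassB μ f Q x r ℓ σ` : the projected mass is `σ`-close to `Q √g μH[m]` against `C¹` tests at scale `ℓ`.
-/

set_option autoImplicit false

open scoped ENNReal ContDiff Topology RealInnerProductSpace
open MeasureTheory

namespace Claimed.Agent.R322.Fit.Corr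

open Claimed.Agent.R322.Tube Claimed.Agent.R322.Fit.Fits

variable {m n : ℕ}

/-- the volume density of the graph of `f`. -/
noncomputable def vd (f : E m → E n) (y : E m) : ℝ := vdens (fderiv ℝ f y)

/-- `κ_a = ⟪mssOp f, Df (G e_a)⟫`. -/
noncomputable def kap (f : E m → E n) (a : Fin m) (y : E m) : ℝ :=
  ⟪mssOp f y, fderiv ℝ f y (Gi (fderiv ℝ f y) (EuclideanSpace.single a 1))⟫

/-- `∑_a ∂_a (κ_a ζ)`. -/
noncomputable def rW (f ζ : E m → E n) (y : E m) : E n :=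
  ∑ a, pdv a (fun y => kap f a y • ζ y) y

/-- the weak Jacobi estimate over `ball x r` at scale `ℓ` with constant `b`. -/
def JacB (μ : Measure (E (m + n))) (f : E m → E n) (x : E m) (r ℓ b : ℝ) : Prop :=
  ∀ (w : E m → E n) (A : ℝ), ContDiff ℝ 2 w → tsupport w ⊆ Metric.ball x r →
    (∀ j : ℕ, j ≤ 2 → ∀ y, ℓ ^ j * ‖iteratedFDeriv ℝ j w y‖ ≤ A) →
    |∫ X, (⟪zet f X, LL f w (prH m n X)⟫ + ⟪mssOp f (prH m n X), w (prH m n X)⟫) ∂μ| ≤ b * A

/-- the mass comparison over `ball x r` at scale `ℓ` with constant `σ`. -/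
def MassB (μ : Measure (E (m + n))) (f : E m → E n) (Q : ℕ) (x : E m) (r ℓ σ : ℝ) : Prop :=
  ∀ (η : E m → ℝ) (A : ℝ), ContDiff ℝ 1 η → tsupport η ⊆ Metric.ball x r →
    (∀ y, |η y| ≤ A) → (∀ y, ℓ * ‖fderiv ℝ η y‖ ≤ A) →
    |∫ X, η (prH m n X) ∂μ - Q * ∫ y, η y * vd f y ∂(μH[(m : ℝ)] : Measure (E m))|
      ≤ σ * ℓ ^ m * A

/-- the two-constant form of the mass comparison (`Fits.MassC W R t Q f x r c₁ c₂` unfolds to the hypothesis with `μ = muc W R t`). -/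
theorem MassB.of_two {μ : Measure (E (m + n))} {f : E m → E n} {Q : ℕ} {x : E m} {r ℓ c₁ c₂ : ℝ}
    (hℓ : 0 < ℓ)
    (h : ∀ (G : E m → ℝ) (A₀ A₁ : ℝ), ContDiff ℝ 1 G → tsupport G ⊆ Metric.ball x r →
      (∀ y, |G y| ≤ A₀) → (∀ y, ‖fderiv ℝ G y‖ ≤ A₁) →
      |∫ X, G (prH m n X) ∂μ
          - Q * ∫ y, G y * vdens (fderiv ℝ f y) ∂(μH[(m : ℝ)] : Measure (E m))|
        ≤ c₁ * A₀ + c₂ * A₁) :
    MassB μ f Q x r ℓ ((c₁ + c₂ / ℓ) / ℓ ^ m) := by
  intro η A hη hs h0 h1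
  have key := h η A (A / ℓ) hη hs h0 (fun y => by
    rw [le_div_iff₀ hℓ, mul_comm]; exact h1 y)
  refine key.trans (le_of_eq ?_)
  have hℓm : ℓ ^ m ≠ 0 := (pow_pos hℓ m).ne'
  field_simp

end Claimed.Agent.R322.Fit.Corr
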