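import Claimed.Agent.R322.Fit.Corr.Link
import Claimed.Agent.R322.Pack048

/-!
# Row 322, Fit/Corr/Dens: scaled sup bounds of `√g`, `1/√g`; multiplication of tests by them; remainders   (architect helper281)

PLANS.
* `exists_vd_bounds`.  `vd f = vdens ∘ Df`, `vdens` is smooth (`Lin.contDiff_vdensA`), `≥ 1`, so `1/vdens` is smooth.  On the compact ball `‖A‖ ≤ 1` of the finite dimensional
  space `E m →L E n` all `‖D^i vdens‖`, `‖D^i (1/vdens)‖`, `i ≤ K`, are bounded by some `C₀` (`IsCompact.exists_bound_of_continuousOn`, `ContDiff.continuous_iteratedFDeriv`).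
  `norm_iteratedFDeriv_comp_le` with `D = 1/ℓ`: `‖D^i (Df)‖ = ‖D^{i+1} f‖ ≤ ℓ^{-i}` (`norm_iteratedFDeriv_fderiv`), `i ≥ 1`.  `C = K! C₀`.
* `smul_test_bound`.  `norm_iteratedFDeriv_smul_le`, `∑_i (j choose i) = 2^j`, `ℓ^j = ℓ^i ℓ^{j-i}`.
* `slope_bounds`.  `norm_iteratedFDeriv_succ_le_sAl`, `sAl_mono`.
* `rW_bound`.  `κ^Ξ_a = ∑_α cxv Ξ α * Tc f α a ∈ A^r`, `nAl 1 ℓ κ^Ξ_a ≤ vAl r ℓ Ξ * 2 sAl r ℓ f` (`Tc_bound`, `isMul_Gc`, `metric_inv`, `nAl_mul_le`, `nAl_sum_le`).  On the open set `O`: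
  `(kap f a y : ℂ) = κ^Ξ_a y` (`Gi_adj_single`, `Gi_symm`; `kap f a = ∑_α (mssOp f)_α Tr (Df) α a`), hence also the derivatives agree (`Filter.EventuallyEq.fderiv_eq`).
  `|κ| ≤ nAl 0`, `ℓ |Dκ| ≤ 2π nAl 1` (`norm_iteratedFDeriv_le_nAl`, `j = 0, 1`).  `∂_a (κ_a ζ) = (∂_a κ_a) ζ + κ_a ∂_a ζ`.
* `eta_bound`.  On `O`: `⟪mssOp f, w⟫ = ⟪Ξ, w⟫`; `|Ξ| ≤ vAl 0 ℓ Ξ`, `ℓ |DΞ| ≤ 2π vAl 1 ℓ Ξ`; off `tsupport w` everything vanishes.
-/

set_option autoImplicit false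

open scoped ENNReal ContDiff Topology RealInnerProductSpace
open MeasureTheory

namespace Claimed.Agent.R322.Fit.Corr

open Claimed.Agent.R322.Tube Claimed.Agent.R322.Fit.Fits

variable {m n : ℕ}

/-! ### leaf L-Fit-Dens-vd -/

/-- bound of finitely many derivatives of a smooth function on the unit ball of matrices (aux of `exists_vd_bounds`). -/
theorem dnv_bound_ball (m n K : ℕ) {g : (E m →L[ℝ] E n) → ℝ} (hg : ContDiff ℝ ∞ g) :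
    ∃ C₀ : ℝ, 0 ≤ C₀ ∧ ∀ i : ℕ, i ≤ K → ∀ A : E m →L[ℝ] E n, ‖A‖ ≤ 1 → ‖iteratedFDeriv ℝ i g A‖ ≤ C₀ := by
  have hcpt : IsCompact (Metric.closedBall (0 : E m →L[ℝ] E n) 1) := isCompact_closedBall 0 1
  have h1 : ∀ i : ℕ, ∃ C : ℝ, ∀ A ∈ Metric.closedBall (0 : E m →L[ℝ] E n) 1,
      ‖iteratedFDeriv ℝ i g A‖ ≤ C := fun i =>
    hcpt.exists_bound_of_continuousOn
      (hg.continuous_iteratedFDeriv (m := i) (by exact_mod_cast le_top)).continuousOn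
  choose C hC using h1
  refine ⟨∑ i ∈ Finset.range (K + 1), |C i|, Finset.sum_nonneg fun i _ => abs_nonneg _, ?_⟩
  intro i hi A hA
  have h2 : ‖iteratedFDeriv ℝ i g A‖ ≤ C i := hC i A (by simpa using hA)
  have h3 : |C i| ≤ ∑ i ∈ Finset.range (K + 1), |C i| :=
    Finset.single_le_sum (f := fun i => |C i|) (fun i _ => abs_nonneg _)
      (Finset.mem_range.2 (by omega))
  exact h2.trans ((le_abs_self _).trans h3)

/-- scaled chain rule bound (aux of `exists_vd_bounds`). -/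
theorem dnv_comp_bound {m n K : ℕ} {g : (E m →L[ℝ] E n) → ℝ} (hg : ContDiff ℝ ∞ g) {C₀ : ℝ}
    (hC₀ : 0 ≤ C₀)
    (hb : ∀ i : ℕ, i ≤ K → ∀ A : E m →L[ℝ] E n, ‖A‖ ≤ 1 → ‖iteratedFDeriv ℝ i g A‖ ≤ C₀)
    {f : E m → E n} {ℓ : ℝ} (hℓ : 0 < ℓ) (hf : ContDiff ℝ (K + 1 : ℕ) f)
    (hfb : ∀ j : ℕ, j ≤ K → ∀ y, ℓ ^ j * ‖iteratedFDeriv ℝ (j + 1) f y‖ ≤ 1) {j : ℕ} (hj : j ≤ K)
    (y : E m) :
    ℓ ^ j * ‖iteratedFDeriv ℝ j (fun y => g (fderiv ℝ f y)) y‖ ≤ (K.factorial : ℝ) * C₀ := by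
  have hDf : ContDiff ℝ (K : ℕ) (fderiv ℝ f) := hf.fderiv_right (by norm_cast)
  have hA : ‖fderiv ℝ f y‖ ≤ 1 := by
    have h := hfb 0 (Nat.zero_le _) y
    rw [pow_zero, one_mul, ← norm_iteratedFDeriv_fderiv, norm_iteratedFDeriv_zero] at h
    exact h
  have hD : ∀ i : ℕ, 1 ≤ i → i ≤ j → ‖iteratedFDeriv ℝ i (fderiv ℝ f) y‖ ≤ (ℓ⁻¹) ^ i := by
    intro i _ hi
    rw [norm_iteratedFDeriv_fderiv, inv_pow, ← one_div, le_div_iff₀ (by positivity), mul_comm]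
    exact hfb i (hi.trans hj) y
  have h := norm_iteratedFDeriv_comp_le (n := j) (N := (K : ℕ)) (hg.of_le (by exact_mod_cast le_top)) hDf
    (by exact_mod_cast hj) y (fun i hi => hb i (hi.trans hj) _ hA) hD
  have h2 : ℓ ^ j * ((j.factorial : ℝ) * C₀ * (ℓ⁻¹) ^ j) = (j.factorial : ℝ) * C₀ := by
    rw [inv_pow]
    field_simp
  have h3 : (j.factorial : ℝ) ≤ (K.factorial : ℝ) := by exact_mod_cast Nat.factorial_le hj
  calc ℓ ^ j * ‖iteratedFDeriv ℝ j (fun y => g (fderiv ℝ f y)) y‖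
      ≤ ℓ ^ j * ((j.factorial : ℝ) * C₀ * (ℓ⁻¹) ^ j) := mul_le_mul_of_nonneg_left h (by positivity)
    _ = (j.factorial : ℝ) * C₀ := h2
    _ ≤ (K.factorial : ℝ) * C₀ := mul_le_mul_of_nonneg_right h3 hC₀

/-- scaled bounds of all derivatives of `√g` and `1/√g`. -/
theorem exists_vd_bounds (m n K : ℕ) : ∃ C : ℝ, 1 ≤ C ∧ ∀ (f : E m → E n) (ℓ : ℝ), 0 < ℓ →
    ContDiff ℝ (K + 1 : ℕ) f → (∀ j : ℕ, j ≤ K → ∀ y, ℓ ^ j * ‖iteratedFDeriv ℝ (j + 1) f y‖ ≤ 1) →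
    ∀ j : ℕ, j ≤ K → ∀ y, ℓ ^ j * ‖iteratedFDeriv ℝ j (vd f) y‖ ≤ C ∧
      ℓ ^ j * ‖iteratedFDeriv ℝ j (fun y => (vd f y)⁻¹) y‖ ≤ C := by
  have hg1 : ContDiff ℝ ∞ (vdens : (E m →L[ℝ] E n) → ℝ) := Lin.contDiff_vdensA
  have hg2 : ContDiff ℝ ∞ (fun A : E m →L[ℝ] E n => (vdens A)⁻¹) :=
    hg1.inv fun A => (Lin.ck_vdens_pos A).ne'
  obtain ⟨C₁, hC₁, hb₁⟩ := dnv_bound_ball m n K hg1
  obtain ⟨C₂, hC₂, hb₂⟩ := dnv_bound_ball m n K hg2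
  have hK : (0 : ℝ) ≤ (K.factorial : ℝ) := Nat.cast_nonneg _
  refine ⟨1 + (K.factorial : ℝ) * C₁ + (K.factorial : ℝ) * C₂, ?_, ?_⟩
  · have := mul_nonneg hK hC₁
    have := mul_nonneg hK hC₂
    linarith
  intro f ℓ hℓ hf hfb j hj y
  have h1 := dnv_comp_bound hg1 hC₁ hb₁ hℓ hf hfb hj y
  have h2 := dnv_comp_bound hg2 hC₂ hb₂ hℓ hf hfb hj y
  have := mul_nonneg hK hC₁
  have := mul_nonneg hK hC₂
  constructor
  · have h3 : ℓ ^ j * ‖iteratedFDeriv ℝ j (vd f) y‖ ≤ (K.factorial : ℝ) * C₁ := h1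
    linarith
  · have h3 : ℓ ^ j * ‖iteratedFDeriv ℝ j (fun y => (vd f y)⁻¹) y‖ ≤ (K.factorial : ℝ) * C₂ := h2
    linarith

/-- products of scaled bounds. -/
theorem smul_test_bound {K : ℕ} {χ : E m → ℝ} {ζ : E m → E n} {ℓ C A : ℝ} (hℓ : 0 < ℓ)
    (hχ : ContDiff ℝ K χ) (hζ : ContDiff ℝ K ζ)
    (hχb : ∀ j : ℕ, j ≤ K → ∀ y, ℓ ^ j * ‖iteratedFDeriv ℝ j χ y‖ ≤ C)
    (hζb : ∀ j : ℕ, j ≤ K → ∀ y, ℓ ^ j * ‖iteratedFDeriv ℝ j ζ y‖ ≤ A) :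
    ∀ j : ℕ, j ≤ K → ∀ y, ℓ ^ j * ‖iteratedFDeriv ℝ j (fun y => χ y • ζ y) y‖ ≤ 2 ^ K * C * A := by
  intro j hj y
  have hC0 : 0 ≤ C := le_trans (by positivity) (hχb 0 (Nat.zero_le _) y)
  have hA0 : 0 ≤ A := le_trans (by positivity) (hζb 0 (Nat.zero_le _) y)
  have h := norm_iteratedFDeriv_smul_le hχ hζ y (n := j) (by exact_mod_cast hj)
  have h1 : ℓ ^ j * ∑ i ∈ Finset.range (j + 1), (j.choose i : ℝ) * ‖iteratedFDeriv ℝ i χ y‖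
        * ‖iteratedFDeriv ℝ (j - i) ζ y‖
      ≤ ∑ i ∈ Finset.range (j + 1), (j.choose i : ℝ) * (C * A) := by
    rw [Finset.mul_sum]
    refine Finset.sum_le_sum fun i hi => ?_
    have hi' : i ≤ j := Nat.lt_succ_iff.1 (Finset.mem_range.1 hi)
    have e : ℓ ^ j = ℓ ^ i * ℓ ^ (j - i) := by rw [← pow_add]; congr 1; omega
    have h2 := hχb i (hi'.trans hj) y
    have h3 := hζb (j - i) ((Nat.sub_le _ _).trans hj) y
    calc ℓ ^ j * ((j.choose i : ℝ) * ‖iteratedFDeriv ℝ i χ y‖ * ‖iteratedFDeriv ℝ (j - i) ζ y‖)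
        = (j.choose i : ℝ) * ((ℓ ^ i * ‖iteratedFDeriv ℝ i χ y‖)
            * (ℓ ^ (j - i) * ‖iteratedFDeriv ℝ (j - i) ζ y‖)) := by rw [e]; ring
      _ ≤ (j.choose i : ℝ) * (C * A) :=
        mul_le_mul_of_nonneg_left (mul_le_mul h2 h3 (by positivity) hC0) (Nat.cast_nonneg _)
  have h4 : ∑ i ∈ Finset.range (j + 1), (j.choose i : ℝ) * (C * A) = 2 ^ j * (C * A) := by
    rw [← Finset.sum_mul]
    congr 1
    exact_mod_cast Nat.sum_range_choose j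
  have h5 : (2 : ℝ) ^ j ≤ 2 ^ K := pow_le_pow_right₀ (by norm_num) hj
  calc ℓ ^ j * ‖iteratedFDeriv ℝ j (fun y => χ y • ζ y) y‖
      ≤ ℓ ^ j * ∑ i ∈ Finset.range (j + 1), (j.choose i : ℝ) * ‖iteratedFDeriv ℝ i χ y‖
        * ‖iteratedFDeriv ℝ (j - i) ζ y‖ := mul_le_mul_of_nonneg_left h (by positivity)
    _ ≤ 2 ^ j * (C * A) := h1.trans h4.le
    _ ≤ 2 ^ K * (C * A) := mul_le_mul_of_nonneg_right h5 (mul_nonneg hC0 hA0)
    _ = 2 ^ K * C * A := by ring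

/-- the slope norm controls the scaled derivatives. -/
theorem slope_bounds {K : ℕ} {f : E m → E n} {ℓ : ℝ} (hℓ : 0 < ℓ) (hf : VIn (K + 1) f)
    (hS : sAl K ℓ f ≤ ENNReal.ofReal ((2 * Real.pi) ^ K)⁻¹) :
    ∀ j : ℕ, j ≤ K → ∀ y, ℓ ^ j * ‖iteratedFDeriv ℝ (j + 1) f y‖ ≤ 1 := by
  intro j hj y
  have hπ : (1 : ℝ) ≤ 2 * Real.pi := by have := Real.pi_gt_three; linarith
  have h1 := norm_iteratedFDeriv_succ_le_sAl (hf.mono (by omega : j + 1 ≤ K + 1)) hℓ y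
  have h2 : sAl j ℓ f ≤ ENNReal.ofReal ((2 * Real.pi) ^ K)⁻¹ := (sAl_mono hj hℓ.le f).trans hS
  have h3 : ENNReal.ofReal (ℓ ^ j * ‖iteratedFDeriv ℝ (j + 1) f y‖)
      ≤ ENNReal.ofReal ((2 * Real.pi) ^ j * ((2 * Real.pi) ^ K)⁻¹) := by
    rw [ENNReal.ofReal_mul (by positivity : (0 : ℝ) ≤ (2 * Real.pi) ^ j)]
    exact h1.trans (by gcongr)
  have h4 : (2 * Real.pi) ^ j * ((2 * Real.pi) ^ K)⁻¹ ≤ 1 := by
    rw [← div_eq_mul_inv, div_le_one (by positivity)]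
    exact pow_le_pow_right₀ hπ hj
  have h5 := (ENNReal.ofReal_le_ofReal_iff (by positivity)).1 h3
  exact h5.trans h4

/-! ### leaf L-Fit-Dens-rem -/

/-- from Wiener bounds to real bounds (aux). -/
theorem dnr_le_of {ℓ ξ x c : ℝ} {V : ℝ≥0∞} (hℓ : 0 < ℓ) (hξ0 : 0 ≤ ξ) (hc : 0 ≤ c)
    (hV : ENNReal.ofReal ℓ * V ≤ ENNReal.ofReal ξ)
    (hx : ENNReal.ofReal x ≤ ENNReal.ofReal c * V) : ℓ * x ≤ c * ξ := by
  have h1 : ENNReal.ofReal (ℓ * x) ≤ ENNReal.ofReal (c * ξ) := by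
    rw [ENNReal.ofReal_mul hℓ.le, ENNReal.ofReal_mul hc]
    calc ENNReal.ofReal ℓ * ENNReal.ofReal x ≤ ENNReal.ofReal ℓ * (ENNReal.ofReal c * V) := by
          gcongr
      _ = ENNReal.ofReal c * (ENNReal.ofReal ℓ * V) := by ring
      _ ≤ ENNReal.ofReal c * ENNReal.ofReal ξ := by gcongr
  exact (ENNReal.ofReal_le_ofReal_iff (by positivity)).1 h1

/-- `κ_a` in components (aux of `rW_bound`). -/
theorem dnr_kap_eq (f : E m → E n) (a : Fin m) (y : E m) :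
    kap f a y = ∑ α, mssOp f y α * Tr (fderiv ℝ f y) α a := by
  unfold kap
  set T := fderiv ℝ f y with hT
  set M := mssOp f y with hM
  rw [← ContinuousLinearMap.adjoint_inner_left, ← Gi_symm]
  have h1 : Gi T (ContinuousLinearMap.adjoint T M)
      = ∑ α, M α • ∑ c, Tr T α c • (EuclideanSpace.single c (1 : ℝ) : E m) := by
    conv_lhs => rw [← sum_apply_single M]
    rw [map_sum, map_sum]
    refine Finset.sum_congr rfl fun α _ => ?_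
    rw [map_smul, map_smul, Gi_adj_single]
  rw [h1, inner_single_eq]
  simp only [WithLp.ofLp_sum, WithLp.ofLp_smul, Finset.sum_apply, Pi.smul_apply, smul_eq_mul,
    PiLp.single_apply, mul_ite, mul_one, mul_zero, Finset.sum_ite_eq, Finset.mem_univ,
    if_true]

/-- the Wiener representative of `κ_a` (aux of `rW_bound`). -/
noncomputable def dnrK (f Ξ : E m → E n) (a : Fin m) (y : E m) : ℂ :=
  ∑ α, Boot.cxv Ξ α y * Tc f α a y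

theorem dnr_K_re (f Ξ : E m → E n) (a : Fin m) (y : E m) :
    (dnrK f Ξ a y).re = ∑ α, Ξ y α * Tr (fderiv ℝ f y) α a := by
  have hT : ∀ γ c, Tc f γ c y = ((Tr (fderiv ℝ f y) γ c : ℝ) : ℂ) := by
    intro γ c
    unfold Tc Tr
    rw [Complex.ofReal_sum]
    refine Finset.sum_congr rfl fun b _ => ?_
    rw [Complex.ofReal_mul]
    rfl
  unfold dnrK
  rw [Complex.re_sum]
  refine Finset.sum_congr rfl fun α _ => ?_
  rw [hT]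
  unfold Boot.cxv
  rw [← Complex.ofReal_mul, Complex.ofReal_re]

/-- product rule with scaled bounds (aux of `rW_bound`). -/
theorem dnr_pdv_smul_bound {g : E m → ℝ} {ζ : E m → E n} {y : E m} {ℓ b₀ b₁ A : ℝ} (hℓ : 0 < ℓ)
    (hb₀ : 0 ≤ b₀) (hb₁ : 0 ≤ b₁)
    (hg : DifferentiableAt ℝ g y) (hζ : DifferentiableAt ℝ ζ y) (h0 : ℓ * |g y| ≤ b₀)
    (h1 : ℓ * (ℓ * ‖fderiv ℝ g y‖) ≤ b₁) (hζ0 : ‖ζ y‖ ≤ A) (hζ1 : ℓ * ‖fderiv ℝ ζ y‖ ≤ A)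
    (a : Fin m) : ℓ ^ 2 * ‖pdv a (fun y => g y • ζ y) y‖ ≤ (b₀ + b₁) * A := by
  unfold pdv
  rw [fderiv_fun_smul hg hζ]
  set e : E m := EuclideanSpace.single a 1 with he
  have hen : ‖e‖ = 1 := by simp [he]
  have h2 : ‖(g y • fderiv ℝ ζ y + (fderiv ℝ g y).smulRight (ζ y)) e‖
      ≤ |g y| * ‖fderiv ℝ ζ y‖ + ‖fderiv ℝ g y‖ * ‖ζ y‖ := by
    rw [_root_.add_apply, _root_.smul_apply, ContinuousLinearMap.smulRight_apply]
    refine (norm_add_le _ _).trans (add_le_add ?_ ?_)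
    · rw [norm_smul, Real.norm_eq_abs]
      have := (fderiv ℝ ζ y).le_opNorm e
      rw [hen, mul_one] at this
      exact mul_le_mul_of_nonneg_left this (abs_nonneg _)
    · rw [norm_smul]
      have := (fderiv ℝ g y).le_opNorm e
      rw [hen, mul_one] at this
      exact mul_le_mul_of_nonneg_right this (norm_nonneg _)
  have hA0 : 0 ≤ A := (norm_nonneg _).trans hζ0
  calc ℓ ^ 2 * ‖(g y • fderiv ℝ ζ y + (fderiv ℝ g y).smulRight (ζ y)) e‖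
      ≤ ℓ ^ 2 * (|g y| * ‖fderiv ℝ ζ y‖ + ‖fderiv ℝ g y‖ * ‖ζ y‖) :=
        mul_le_mul_of_nonneg_left h2 (by positivity)
    _ = (ℓ * |g y|) * (ℓ * ‖fderiv ℝ ζ y‖) + (ℓ * (ℓ * ‖fderiv ℝ g y‖)) * ‖ζ y‖ := by ring
    _ ≤ b₀ * A + b₁ * A :=
        add_le_add (mul_le_mul h0 hζ1 (by positivity) hb₀) (mul_le_mul h1 hζ0 (norm_nonneg _) hb₁)
    _ = (b₀ + b₁) * A := by ring

/-- the remainder `rW` is of the size of `mssOp f`. -/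
theorem rW_bound (m n r : ℕ) (hr : m + 1 ≤ r) : ∃ σ₀ C : ℝ, 0 < σ₀ ∧ 0 ≤ C ∧
    ∀ (f Ξ : E m → E n) (O : Set (E m)) (ℓ ξ : ℝ), 0 < ℓ → 0 ≤ ξ → IsOpen O → VIn (r + 2) f →
      sAl (r + 1) ℓ f ≤ ENNReal.ofReal σ₀ → VIn r Ξ → (∀ y ∈ O, mssOp f y = Ξ y) →
      ENNReal.ofReal ℓ * vAl r ℓ Ξ ≤ ENNReal.ofReal ξ →
      ∀ (ζ : E m → E n) (A : ℝ), ContDiff ℝ 1 ζ → (∀ y, ‖ζ y‖ ≤ A) →
        (∀ y, ℓ * ‖fderiv ℝ ζ y‖ ≤ A) → ∀ y ∈ O, ℓ ^ 2 * ‖rW f ζ y‖ ≤ C * ξ * A := by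
  obtain ⟨σ₀, hσ₀, hσ₁, hmet⟩ := metric_inv m n r hr
  have hπ := Real.pi_pos
  refine ⟨σ₀, m * (1 + 2 * Real.pi), hσ₀, by positivity, ?_⟩
  intro f Ξ O ℓ ξ hℓ hξ0 hO hf hS hΞ hfΞ hξ ζ A hζ hζ0 hζ1 y hy
  have hr1 : 1 ≤ r := by omega
  have hf1 : VIn (r + 1) f := hf.mono (by omega)
  have hSr : sAl r ℓ f ≤ ENNReal.ofReal σ₀ := (sAl_mono (Nat.le_succ r) hℓ.le f).trans hS
  obtain ⟨hY, hYs⟩ := hmet f ℓ hℓ hf1 hSr
  have hS1 : 2 * sAl r ℓ f ≤ 1 := by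
    calc 2 * sAl r ℓ f ≤ 2 * ENNReal.ofReal σ₀ := by gcongr
      _ = ENNReal.ofReal (2 * σ₀) := by
        rw [ENNReal.ofReal_mul (by norm_num : (0 : ℝ) ≤ 2)]
        simp
      _ ≤ ENNReal.ofReal 1 := ENNReal.ofReal_le_ofReal (by linarith)
      _ = 1 := ENNReal.ofReal_one
  have hS2 : sAl r ℓ f ≤ 1 := le_trans (by
    calc sAl r ℓ f = 1 * sAl r ℓ f := (one_mul _).symm
      _ ≤ 2 * sAl r ℓ f := by gcongr; norm_num) hS1
  have hY1 : ∀ a b, nAl r ℓ (Yc f a b) ≤ 1 := by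
    intro a b
    have h1 : nAl r ℓ (Yc f a b) ≤ ∑ a, ∑ b, nAl r ℓ (Yc f a b) :=
      (Finset.single_le_sum (f := fun b => nAl r ℓ (Yc f a b)) (fun _ _ => bot_le)
        (Finset.mem_univ b)).trans
      (Finset.single_le_sum (f := fun a => ∑ b, nAl r ℓ (Yc f a b)) (fun _ _ => bot_le)
        (Finset.mem_univ a))
    calc nAl r ℓ (Yc f a b) ≤ 2 * (sAl r ℓ f) ^ 2 := h1.trans hYs
      _ = (2 * sAl r ℓ f) * sAl r ℓ f := by ring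
      _ ≤ 1 * 1 := mul_le_mul' hS1 hS2
      _ = 1 := one_mul _
  have hG : ∀ a b, IsMul r ℓ (Gc f a b) 2 := fun a b => isMul_Gc hℓ (hY a b) (hY1 a b)
  have hT := fun γ c => Tc_bound hf1 hG γ c
  -- the Wiener representative
  have hKin : ∀ a, InA r (dnrK f Ξ a) := fun a =>
    InA.sum _ fun α _ => (hΞ α).mul (hT α a).1
  have hKb : ∀ a, ENNReal.ofReal ℓ * nAl r ℓ (dnrK f Ξ a) ≤ ENNReal.ofReal ξ := by
    intro a
    have h1 : nAl r ℓ (dnrK f Ξ a) ≤ vAl r ℓ Ξ * (2 * sAl r ℓ f) := by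
      refine (nAl_sum_le r ℓ _ fun α _ => ((hΞ α).mul (hT α a).1).integrable).trans ?_
      unfold vAl
      rw [Finset.sum_mul]
      refine Finset.sum_le_sum fun α _ => ?_
      exact (nAl_mul_le r hℓ ((hΞ α).mono (Nat.zero_le _)) ((hT α a).1.mono (Nat.zero_le _))).trans
        (mul_le_mul' le_rfl (hT α a).2)
    calc ENNReal.ofReal ℓ * nAl r ℓ (dnrK f Ξ a)
        ≤ ENNReal.ofReal ℓ * (vAl r ℓ Ξ * (2 * sAl r ℓ f)) := by gcongr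
      _ ≤ ENNReal.ofReal ℓ * (vAl r ℓ Ξ * 1) := by gcongr
      _ = ENNReal.ofReal ℓ * vAl r ℓ Ξ := by rw [mul_one]
      _ ≤ ENNReal.ofReal ξ := hξ
  have hterm : ∀ a, ℓ ^ 2 * ‖pdv a (fun y => kap f a y • ζ y) y‖ ≤ (1 * ξ + 2 * Real.pi * ξ) * A := by
    intro a
    set g : E m → ℝ := fun y => (dnrK f Ξ a y).re with hg
    have heq : (fun y => kap f a y • ζ y) =ᶠ[𝓝 y] fun y => g y • ζ y := by
      filter_upwards [hO.mem_nhds hy] with y' hy'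
      rw [dnr_kap_eq, hfΞ y' hy', hg]
      simp only [dnr_K_re]
    have hpd : pdv a (fun y => kap f a y • ζ y) y = pdv a (fun y => g y • ζ y) y := by
      unfold pdv
      rw [heq.fderiv_eq]
    rw [hpd]
    have hKd : DifferentiableAt ℝ (dnrK f Ξ a) y :=
      (((hKin a).mono hr1).contDiff.differentiable (by norm_num)) y
    have hgd : HasFDerivAt g (Complex.reCLM ∘L fderiv ℝ (dnrK f Ξ a) y) y :=
      Complex.reCLM.hasFDerivAt.comp y hKd.hasFDerivAt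
    have h0 : ℓ * |g y| ≤ 1 * ξ := by
      have h1 := norm_iteratedFDeriv_le_nAl ((hKin a).mono (Nat.zero_le _)) hℓ y
      rw [pow_zero, pow_zero, one_mul, norm_iteratedFDeriv_zero] at h1
      have h2 := dnr_le_of hℓ hξ0 zero_le_one (hKb a)
        (h1.trans (mul_le_mul' le_rfl (nAl_mono (Nat.zero_le _) hℓ.le _)))
      exact (mul_le_mul_of_nonneg_left (Complex.abs_re_le_norm _) hℓ.le).trans h2
    have h1 : ℓ * (ℓ * ‖fderiv ℝ g y‖) ≤ 2 * Real.pi * ξ := by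
      have h1 := norm_iteratedFDeriv_le_nAl ((hKin a).mono hr1) hℓ y
      rw [pow_one, pow_one, norm_iteratedFDeriv_one] at h1
      have h2 := dnr_le_of hℓ hξ0 (by positivity) (hKb a)
        (h1.trans (mul_le_mul' le_rfl (nAl_mono hr1 hℓ.le _)))
      have h3 : ‖fderiv ℝ g y‖ ≤ ‖fderiv ℝ (dnrK f Ξ a) y‖ := by
        rw [hgd.fderiv]
        refine (ContinuousLinearMap.opNorm_comp_le _ _).trans ?_
        rw [Complex.reCLM_norm, one_mul]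
      exact (mul_le_mul_of_nonneg_left (mul_le_mul_of_nonneg_left h3 hℓ.le) hℓ.le).trans h2
    exact dnr_pdv_smul_bound hℓ (by positivity) (by positivity) hgd.differentiableAt
      ((hζ.differentiable (by norm_num)) y) h0 h1 (hζ0 y) (hζ1 y) a
  unfold rW
  calc ℓ ^ 2 * ‖∑ a, pdv a (fun y => kap f a y • ζ y) y‖
      ≤ ℓ ^ 2 * ∑ a, ‖pdv a (fun y => kap f a y • ζ y) y‖ :=
        mul_le_mul_of_nonneg_left (norm_sum_le _ _) (by positivity)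
    _ = ∑ a, ℓ ^ 2 * ‖pdv a (fun y => kap f a y • ζ y) y‖ := Finset.mul_sum _ _ _
    _ ≤ ∑ _a : Fin m, (1 * ξ + 2 * Real.pi * ξ) * A := Finset.sum_le_sum fun a _ => hterm a
    _ = m * (1 + 2 * Real.pi) * ξ * A := by
        rw [Finset.sum_const, Finset.card_univ, Fintype.card_fin, nsmul_eq_mul]
        ring

/-- `rW` is local. -/
theorem rW_eq_zero_of_notMem (f : E m → E n) {ζ : E m → E n} {y : E m} (hy : y ∉ tsupport ζ) :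
    rW f ζ y = 0 := by
  have h0 : ζ =ᶠ[𝓝 y] 0 := notMem_tsupport_iff_eventuallyEq.1 hy
  unfold rW
  refine Finset.sum_eq_zero fun a _ => ?_
  have h1 : (fun y => kap f a y • ζ y) =ᶠ[𝓝 y] fun _ => (0 : E n) := by
    filter_upwards [h0] with y' hy'
    rw [hy']
    simp
  unfold pdv
  rw [h1.fderiv_eq]
  simp

theorem continuous_rW {f ζ : E m → E n} (hf : ContDiff ℝ 3 f) (hζ : ContDiff ℝ 1 ζ) :
    Continuous (rW f ζ) := by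
  unfold rW
  refine continuous_finsetSum _ fun a _ => ?_
  have h1 : ContDiff ℝ 1 (fun y => kap f a y • ζ y) :=
    (contDiff_kap (k := 1) (by exact_mod_cast hf) a).smul hζ
  unfold pdv
  exact (h1.continuous_fderiv (by norm_num)).clm_apply continuous_const

/-- the scalar test `⟪mssOp f, w⟫`. -/
theorem eta_bound {r : ℕ} (hr : 1 ≤ r) {f Ξ w : E m → E n} {O : Set (E m)} {ℓ ξ A : ℝ} (hℓ : 0 < ℓ)
    (hξ0 : 0 ≤ ξ) (hO : IsOpen O) (hΞ : VIn r Ξ) (hfΞ : ∀ y ∈ O, mssOp f y = Ξ y)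
    (hξ : ENNReal.ofReal ℓ * vAl r ℓ Ξ ≤ ENNReal.ofReal ξ) (hw : ContDiff ℝ 1 w)
    (hws : tsupport w ⊆ O) (hw0 : ∀ y, ‖w y‖ ≤ A) (hw1 : ∀ y, ℓ * ‖fderiv ℝ w y‖ ≤ A) :
    (∀ y, ℓ * |⟪mssOp f y, w y⟫| ≤ ξ * A) ∧
      (∀ y, ℓ * (ℓ * ‖fderiv ℝ (fun y => ⟪mssOp f y, w y⟫) y‖) ≤ (2 * Real.pi + 1) * ξ * A) := by
  have hπ := Real.pi_pos
  have hA0 : 0 ≤ A := (norm_nonneg _).trans (hw0 0)
  have hΞ0 : ∀ y, ℓ * ‖Ξ y‖ ≤ ξ := by
    intro y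
    have h1 : ENNReal.ofReal ‖Ξ y‖ ≤ ENNReal.ofReal 1 * vAl r ℓ Ξ := by
      rw [ENNReal.ofReal_one, one_mul]
      exact (norm_le_vAl (hΞ.mono (Nat.zero_le _)) ℓ y).trans (vAl_mono (Nat.zero_le _) hℓ.le Ξ)
    simpa using dnr_le_of hℓ hξ0 zero_le_one hξ h1
  have hΞ1 : ∀ y, ℓ * (ℓ * ‖fderiv ℝ Ξ y‖) ≤ 2 * Real.pi * ξ := by
    intro y
    have h0 := norm_iteratedFDeriv_le_vAl (hΞ.mono hr) hℓ y
    rw [pow_one, pow_one, norm_iteratedFDeriv_one] at h0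
    exact dnr_le_of hℓ hξ0 (by positivity) hξ
      (h0.trans (mul_le_mul' le_rfl (vAl_mono hr hℓ.le Ξ)))
  have hoff : ∀ y, y ∉ O → w =ᶠ[𝓝 y] 0 := fun y hy =>
    notMem_tsupport_iff_eventuallyEq.1 fun h => hy (hws h)
  constructor
  · intro y
    by_cases hy : y ∈ O
    · rw [hfΞ y hy]
      calc ℓ * |⟪Ξ y, w y⟫| ≤ ℓ * (‖Ξ y‖ * ‖w y‖) :=
            mul_le_mul_of_nonneg_left (abs_real_inner_le_norm _ _) hℓ.le
        _ = (ℓ * ‖Ξ y‖) * ‖w y‖ := by ring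
        _ ≤ ξ * A := mul_le_mul (hΞ0 y) (hw0 y) (norm_nonneg _) hξ0
    · have h0 : w y = 0 := (hoff y hy).self_of_nhds
      rw [h0]
      simp only [inner_zero_right, abs_zero, mul_zero]
      positivity
  · intro y
    by_cases hy : y ∈ O
    · have he : (fun y => ⟪mssOp f y, w y⟫) =ᶠ[𝓝 y] fun y => ⟪Ξ y, w y⟫ := by
        filter_upwards [hO.mem_nhds hy] with y' hy'
        rw [hfΞ y' hy']
      rw [he.fderiv_eq]
      have hdΞ : DifferentiableAt ℝ Ξ y :=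
        ((hΞ.mono hr).contDiff.differentiable (by norm_num)) y
      have hdw : DifferentiableAt ℝ w y := (hw.differentiable (by norm_num)) y
      have hn : ‖fderiv ℝ (fun y => ⟪Ξ y, w y⟫) y‖
          ≤ ‖Ξ y‖ * ‖fderiv ℝ w y‖ + ‖fderiv ℝ Ξ y‖ * ‖w y‖ := by
        refine ContinuousLinearMap.opNorm_le_bound _ (by positivity) fun v => ?_
        rw [fderiv_inner_apply ℝ hdΞ hdw v, Real.norm_eq_abs]
        have h1 : |⟪Ξ y, fderiv ℝ w y v⟫| ≤ ‖Ξ y‖ * (‖fderiv ℝ w y‖ * ‖v‖) :=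
          (abs_real_inner_le_norm _ _).trans
            (mul_le_mul_of_nonneg_left ((fderiv ℝ w y).le_opNorm v) (norm_nonneg _))
        have h2 : |⟪fderiv ℝ Ξ y v, w y⟫| ≤ (‖fderiv ℝ Ξ y‖ * ‖v‖) * ‖w y‖ :=
          (abs_real_inner_le_norm _ _).trans
            (mul_le_mul_of_nonneg_right ((fderiv ℝ Ξ y).le_opNorm v) (norm_nonneg _))
        calc |⟪Ξ y, fderiv ℝ w y v⟫ + ⟪fderiv ℝ Ξ y v, w y⟫|
            ≤ |⟪Ξ y, fderiv ℝ w y v⟫| + |⟪fderiv ℝ Ξ y v, w y⟫| := abs_add_le _ _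
          _ ≤ ‖Ξ y‖ * (‖fderiv ℝ w y‖ * ‖v‖) + (‖fderiv ℝ Ξ y‖ * ‖v‖) * ‖w y‖ := add_le_add h1 h2
          _ = (‖Ξ y‖ * ‖fderiv ℝ w y‖ + ‖fderiv ℝ Ξ y‖ * ‖w y‖) * ‖v‖ := by ring
      calc ℓ * (ℓ * ‖fderiv ℝ (fun y => ⟪Ξ y, w y⟫) y‖)
          ≤ ℓ * (ℓ * (‖Ξ y‖ * ‖fderiv ℝ w y‖ + ‖fderiv ℝ Ξ y‖ * ‖w y‖)) :=
            mul_le_mul_of_nonneg_left (mul_le_mul_of_nonneg_left hn hℓ.le) hℓ.le
        _ = (ℓ * ‖Ξ y‖) * (ℓ * ‖fderiv ℝ w y‖) + (ℓ * (ℓ * ‖fderiv ℝ Ξ y‖)) * ‖w y‖ := by ring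
        _ ≤ ξ * A + (2 * Real.pi * ξ) * A :=
            add_le_add (mul_le_mul (hΞ0 y) (hw1 y) (by positivity) hξ0)
              (mul_le_mul (hΞ1 y) (hw0 y) (norm_nonneg _) (by positivity))
        _ = (2 * Real.pi + 1) * ξ * A := by ring
    · have he : (fun y => ⟪mssOp f y, w y⟫) =ᶠ[𝓝 y] fun _ => (0 : ℝ) := by
        filter_upwards [hoff y hy] with y' hy'
        rw [hy']
        simp
      rw [he.fderiv_eq]
      simp only [fderiv_fun_const, Pi.zero_apply, norm_zero, mul_zero]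
      positivity

end Claimed.Agent.R322.Fit.Corr
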