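import Claimed.Agent.R322.Fit.Corr.Defs
import Claimed.Agent.R322.Pack013
import Claimed.Agent.R322.Fit.Fits.Alg

/-!
# Row 322, Fit/Corr/Link: the operator `LL f` of the weak Jacobi estimate is the adjoint of the linearised minimal surface system   (architect helper281)

Notation at a point `y`: `A = Df`, `G = Gi A = Gf f y` (rfl), `√g = vd f`, `λ = lamV f = ∇ log √g`, `S_w = Tube.Sop f y (inV w)` (`⟪S_w a, b⟫ = ⟪D²f(a,b), w⟫`),
`Φ_w = PhiW f w = Dw G + 2 A G S_w G`, `LL f w = dvg Φ_w + Φ_w λ`, `L = (pairCoef f f).op`, `κ_a = kap f a`.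

  **`link`** :  `∫ ⟪L φ, √g w⟫ = ∫ ⟪φ, √g LL f w - ∑_a ∂_a (√g κ_a w)⟫`      (`φ ∈ C²_c`, `w ∈ C²`),
  **`adj_eq`** : `(pairCoef f f).adj (√g w) = √g LL f w - ∑_a ∂_a (√g κ_a w)`  pointwise.

CHAIN.
(a) `vd_smul_LL`     `√g LL f w = dvg (√g Φ_w)`                       [product rule, `D √g = √g ⟪λ, ·⟫` : `Tube.hasFDerivAt_vdens`, `trW_apply`, `dFp = G Tᵀ`, `Tᵀ inV = Aᵀ`]
(b) `integral_inner_dvg`  `∫ ⟪φ, dvg Ψ⟫ = - ∫ ∑_a ⟪∂_a φ, Ψ e_a⟫`      [`integral_inner_pdv` for `G_a = Ψ(·) e_a`]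
(c) `sum_inner_PhiW`  `∑_a ⟪∂_a φ, Φ_w e_a⟫ = ∑_b ⟪Dφ (G e_b), ∂_b w⟫ + ⟪∑_a D²f (G M G e_a, e_a), w⟫`, `M = Aᵀ Dφ + Dφᵀ A`
      [traces: `tr (S_w G M G) = 2 tr (Dφᵀ A G S_w G)` by cyclicity and symmetry of `G`, `S_w`; `∑_a ⟪Dφ e_a, Dw G e_a⟫ = ∑_b ⟪Dφ G e_b, Dw e_b⟫` : `tr_swap`-type]
(d) `div_vd_Gi`       `∑_b ∂_b (√g G e_b) = - √g G Aᵀ mssOp f`
      [`∂_b G = - G (∂_b g) G`, `∂_b g = (D_b A)ᵀ A + Aᵀ D_b A`; `∑_b D_bA (G e_b) = mssOp f` (symmetry of `D²f`); `λ = ∑_b (D_bA)ᵀ A G e_b`]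
(e) `div_vd_Dphi`     `∑_b ∂_b (√g Dφ (G e_b)) = √g ∑_b D²φ (G e_b, e_b) - √g ∑_a κ_a ∂_a φ`   [product rule and (d)]
(f) `link`: (a), (b), (c), `integral_inner_pdv` for `F_b = √g Dφ (G e_b)`, (e), `pairCoef_op_eq`, `integral_inner_pdv` for the `κ` term.
(g) `adj_eq`: `Coef.integral_op_inner` and `link` give `∫ ⟪φ, D⟫ = 0` for all `φ ∈ C^∞_c`, `D` continuous; so `D = 0`
      (test with `φ = χ D`-type bumps, or componentwise `ae_eq_zero_of_integral_contDiff_smul_eq_zero` + continuity: `Continuous.ae_eq_iff_eq`).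
-/

set_option autoImplicit false

open scoped ENNReal ContDiff Topology RealInnerProductSpace
open MeasureTheory

namespace Claimed.Agent.R322.Fit.Corr

open Claimed.Agent.R322.Tube Claimed.Agent.R322.Fit.Fits

local notation "adj" => ContinuousLinearMap.adjoint

variable {m n : ℕ}

/-! ### regularity   (leaf L-Fit-Link-reg) -/

theorem contDiff_vd {f : E m → E n} {k : ℕ} (hf : ContDiff ℝ (k + 1 : ℕ) f) : ContDiff ℝ k (vd f) := by
  have h1 : ContDiff ℝ k (fun y => gmat (fderiv ℝ f y)) := contDiff_gmatA.comp (contDiff_Du hf)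
  have h2 : ContDiff ℝ k (fun y => dtm (gmat (fderiv ℝ f y))) :=
    ((Base.contDiff_det m).of_le (by exact_mod_cast le_top)).comp h1
  exact h2.sqrt fun y => (dtm_gmat_pos _).ne'

theorem one_le_vd (f : E m → E n) (y : E m) : 1 ≤ vd f y := Base.Exit.one_le_vdens _

theorem contDiff_Gi_Df {f : E m → E n} {k : ℕ} (hf : ContDiff ℝ (k + 1 : ℕ) f) :
    ContDiff ℝ k (fun y => Gi (fderiv ℝ f y)) :=
  Tube.contDiff_gmat_inverse_Du hf

theorem contDiff_mssOp {f : E m → E n} {k : ℕ} (hf : ContDiff ℝ (k + 2 : ℕ) f) :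
    ContDiff ℝ k (mssOp f) := by
  have hG : ContDiff ℝ k (fun y => Gi (fderiv ℝ f y)) :=
    contDiff_Gi_Df (hf.of_le (by exact_mod_cast Nat.le_succ _))
  have hD : ContDiff ℝ k (D2 f) := contDiff_D2_of hf
  have h0 : mssOp f = fun y => ∑ a : Fin m,
      D2 f y (Gi (fderiv ℝ f y) (EuclideanSpace.single a 1)) (EuclideanSpace.single a 1) := rfl
  rw [h0]
  refine ContDiff.sum fun a _ => ?_
  exact (hD.clm_apply (hG.clm_apply contDiff_const)).clm_apply contDiff_const

theorem contDiff_kap {f : E m → E n} {k : ℕ} (hf : ContDiff ℝ (k + 2 : ℕ) f) (a : Fin m) :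
    ContDiff ℝ k (kap f a) := by
  have hf1 : ContDiff ℝ (k + 1 : ℕ) f := hf.of_le (by exact_mod_cast Nat.le_succ _)
  have hG : ContDiff ℝ k (fun y => Gi (fderiv ℝ f y)) := contDiff_Gi_Df hf1
  unfold kap
  exact (contDiff_mssOp hf).inner ℝ ((contDiff_Du hf1).clm_apply (hG.clm_apply contDiff_const))

theorem contDiff_PhiW {f w : E m → E n} {k : ℕ} (hf : ContDiff ℝ (k + 2 : ℕ) f)
    (hw : ContDiff ℝ (k + 1 : ℕ) w) : ContDiff ℝ k (PhiW f w) := by
  have hf1 : ContDiff ℝ (k + 1 : ℕ) f := hf.of_le (by exact_mod_cast Nat.le_succ _)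
  have hG : ContDiff ℝ k (Gf f) := contDiff_gmat_inverse_Du hf1
  have hS : ContDiff ℝ k (fun y => Tube.Sop f y (inV m n (w y))) :=
    contDiff_Sop_inV hf (hw.of_le (by exact_mod_cast Nat.le_succ _))
  unfold PhiW
  exact ((contDiff_Du hw).clm_comp hG).add
    (((contDiff_Du hf1).clm_comp (hG.clm_comp (hS.clm_comp hG))).const_smul (2 : ℝ))

theorem continuous_lamV {f : E m → E n} (hf : ContDiff ℝ 2 f) : Continuous (lamV f) := by
  have hG : ContDiff ℝ 0 (Gf f) := by
    exact_mod_cast contDiff_gmat_inverse_Du (k := 0) (u := f) (hf.of_le (by norm_num))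
  have hA : ContDiff ℝ 0 (fderiv ℝ f) := by
    exact_mod_cast contDiff_Du (k := 0) (u := f) (hf.of_le (by norm_num))
  have hD : ContDiff ℝ 0 (D2 f) := by
    exact_mod_cast contDiff_D2_of (k := 0) (f := f) (by exact_mod_cast hf)
  unfold lamV
  refine continuous_finsetSum _ fun b _ => ?_
  refine Continuous.smul (M := ℝ) (X := E m) ?_ continuous_const
  have h1 : ContDiff ℝ 0 (fun y => Gf f y ∘L adj (fderiv ℝ f y) ∘L D2 f y (EuclideanSpace.single b 1)) :=
    hG.clm_comp ((contDiff_adjoint.comp hA).clm_comp (hD.clm_apply contDiff_const))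
  exact (trcL m).continuous.comp h1.continuous

theorem continuous_LL {f w : E m → E n} (hf : ContDiff ℝ 3 f) (hw : ContDiff ℝ 2 w) :
    Continuous (LL f w) := by
  have hP : ContDiff ℝ 1 (PhiW f w) := by
    exact_mod_cast contDiff_PhiW (k := 1) (by exact_mod_cast hf) (by exact_mod_cast hw)
  have hP' : Continuous (fderiv ℝ (PhiW f w)) := hP.continuous_fderiv (by norm_num)
  unfold LL dvg
  refine Continuous.add ?_ ?_
  · refine continuous_finsetSum _ fun a _ => ?_
    exact (hP'.clm_apply continuous_const).clm_apply continuous_const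
  · exact hP.continuous.clm_apply (continuous_lamV (hf.of_le (by norm_num)))

set_option maxSynthPendingDepth 4 in
/-- `LL f` is local. -/
theorem LL_eq_zero_of_notMem (f : E m → E n) {w : E m → E n} {y : E m} (hy : y ∉ tsupport w) :
    LL f w y = 0 := by
  have h1 : w =ᶠ[𝓝 y] 0 := notMem_tsupport_iff_eventuallyEq.1 hy
  have h2 : PhiW f w =ᶠ[𝓝 y] 0 := by
    have h3 : ∀ᶠ z in 𝓝 y, w =ᶠ[𝓝 z] 0 := eventually_eventually_nhds.2 h1
    filter_upwards [h3] with z hz
    have h4 : fderiv ℝ w z = 0 := by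
      rw [hz.fderiv_eq]
      simp
    have h5 : w z = 0 := hz.self_of_nhds
    have h6 : Tube.Sop f z (inV m n (w z)) = 0 := by
      ext1 a
      rw [Sop_apply, h5]
      simp
    unfold PhiW
    rw [h4, h6]
    simp only [ContinuousLinearMap.zero_comp, ContinuousLinearMap.comp_zero, smul_zero, add_zero,
      Pi.zero_apply]
  unfold LL dvg
  rw [h2.fderiv_eq, h2.self_of_nhds]
  simp

/-! ### (a), (b)   (leaf L-Fit-Link-div) -/

/-- `⟪λ, v⟫ = tr (G Aᵀ D_v A)`. -/
theorem lk_inner_lamV (f : E m → E n) (y v : E m) :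
    ⟪lamV f y, v⟫ = trc (Gf f y ∘L adj (fderiv ℝ f y) ∘L D2 f y v) := by
  obtain ⟨Lf, hLf⟩ : ∃ Lf : E m →L[ℝ] ℝ,
      ∀ v, Lf v = trc (Gf f y ∘L adj (fderiv ℝ f y) ∘L D2 f y v) :=
    ⟨trcL m ∘L (ContinuousLinearMap.compL ℝ (E m) (E n) (E m)
      (Gf f y ∘L adj (fderiv ℝ f y))) ∘L D2 f y, fun v => rfl⟩
  unfold lamV
  rw [sum_inner, ← hLf]
  conv_rhs => rw [← sum_inner_single v]
  rw [map_sum]
  refine Finset.sum_congr rfl fun b _ => ?_
  rw [inner_smul_left, map_smul, ← hLf, smul_eq_mul, real_inner_comm]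
  simp [mul_comm]

/-- `D √g = √g ⟪λ, ·⟫`. -/
theorem fderiv_vd {f : E m → E n} (hf : ContDiff ℝ 2 f) (y v : E m) :
    fderiv ℝ (vd f) y v = vd f y * ⟪lamV f y, v⟫ := by
  have h1 : HasFDerivAt (vd f) (vd f y • trW f y) y := hasFDerivAt_vdens hf y
  rw [h1.fderiv, lk_inner_lamV, _root_.smul_apply, smul_eq_mul, trW_apply]
  congr 2
  unfold Wop
  rw [← ContinuousLinearMap.comp_assoc, Base.Exit.dFp_comp_inV, ContinuousLinearMap.comp_assoc]
  rfl

theorem vd_smul_LL {f w : E m → E n} (hf : ContDiff ℝ 3 f) (hw : ContDiff ℝ 2 w) (y : E m) :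
    vd f y • LL f w y = dvg (fun y => vd f y • PhiW f w y) y := by
  have hf2 : ContDiff ℝ 2 f := hf.of_le (by norm_num)
  have hv : HasFDerivAt (vd f) (fderiv ℝ (vd f) y) y :=
    ((contDiff_vd (k := 1) (by exact_mod_cast hf2)).differentiable (by norm_num) y).hasFDerivAt
  have hP : HasFDerivAt (PhiW f w) (fderiv ℝ (PhiW f w) y) y :=
    ((contDiff_PhiW (k := 1) (by exact_mod_cast hf) (by exact_mod_cast hw)).differentiable
      (by norm_num) y).hasFDerivAt
  have h1 : HasFDerivAt (fun y => vd f y • PhiW f w y)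
      (vd f y • fderiv ℝ (PhiW f w) y + (fderiv ℝ (vd f) y).smulRight (PhiW f w y)) y := hv.smul hP
  unfold LL dvg
  rw [h1.fderiv, smul_add, Finset.smul_sum]
  have h2 : PhiW f w y (lamV f y)
      = ∑ a, ⟪lamV f y, (EuclideanSpace.single a (1 : ℝ) : E m)⟫ •
          PhiW f w y (EuclideanSpace.single a 1) := by
    conv_lhs => rw [← sum_inner_single (lamV f y)]
    rw [map_sum]
    refine Finset.sum_congr rfl fun a _ => ?_
    rw [map_smul]
  rw [h2, Finset.smul_sum, ← Finset.sum_add_distrib]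
  refine Finset.sum_congr rfl fun a _ => ?_
  simp only [_root_.add_apply, _root_.smul_apply,
    ContinuousLinearMap.smulRight_apply, fderiv_vd hf2, smul_smul]

theorem integral_inner_dvg {φ : E m → E n} {Ψ : E m → E m →L[ℝ] E n} (hφ : ContDiff ℝ 1 φ)
    (hφc : HasCompactSupport φ) (hΨ : ContDiff ℝ 1 Ψ) :
    ∫ y, ⟪φ y, dvg Ψ y⟫ = - ∫ y, ∑ a, ⟪pdv a φ y, Ψ y (EuclideanSpace.single a 1)⟫ := by
  have hG : ∀ a : Fin m, ContDiff ℝ 1 (fun y => Ψ y (EuclideanSpace.single a 1)) := fun a =>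
    hΨ.clm_apply contDiff_const
  have hpd : ∀ (a : Fin m) (y : E m), pdv a (fun y => Ψ y (EuclideanSpace.single a 1)) y
      = fderiv ℝ Ψ y (EuclideanSpace.single a 1) (EuclideanSpace.single a 1) := by
    intro a y
    have h1 : HasFDerivAt Ψ (fderiv ℝ Ψ y) y := (hΨ.differentiable (by norm_num) y).hasFDerivAt
    have h2 := h1.clm_apply (hasFDerivAt_const (EuclideanSpace.single a (1 : ℝ) : E m) y)
    unfold pdv
    rw [h2.fderiv]
    simp
  have hφ' : ∀ a : Fin m, Continuous (pdv a φ) := fun a =>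
    (adj_contDiff_pdv (k := 0) (by exact_mod_cast hφ) a).continuous
  have hG' : ∀ a : Fin m, Continuous (pdv a (fun y => Ψ y (EuclideanSpace.single a 1))) := fun a =>
    (adj_contDiff_pdv (k := 0) (by exact_mod_cast hG a) a).continuous
  have e1 : ∀ y, ⟪φ y, dvg Ψ y⟫
      = ∑ a, ⟪φ y, pdv a (fun y => Ψ y (EuclideanSpace.single a 1)) y⟫ := by
    intro y
    unfold dvg
    rw [inner_sum]
    refine Finset.sum_congr rfl fun a _ => ?_
    rw [hpd]
  simp only [e1]
  rw [integral_finsetSum _ fun a _ => adj_integrable_inner hφ.continuous (hG' a) hφc,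
    integral_finsetSum _ fun a _ => adj_integrable_inner (hφ' a) (hG a).continuous
      (adj_hasCompactSupport_pdv hφc a), ← Finset.sum_neg_distrib]
  refine Finset.sum_congr rfl fun a _ => ?_
  rw [integral_inner_pdv hφ (hG a) hφc a, neg_neg]

/-! ### (c)   (leaf L-Fit-Link-alg) -/

/-- `∑_a ⟪P e_a, X e_a⟫ = tr (Pᵀ X)`. -/
theorem lk_sum_inner_eq_trc (P X : E m →L[ℝ] E n) :
    ∑ a, ⟪P (EuclideanSpace.single a 1), X (EuclideanSpace.single a 1)⟫ = trc (adj P ∘L X) := by
  rw [trc_eq_sum]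
  refine Finset.sum_congr rfl fun a _ => ?_
  rw [ContinuousLinearMap.comp_apply, ContinuousLinearMap.adjoint_inner_left, real_inner_comm]

/-- the trace identity behind `sum_inner_PhiW`. -/
theorem lk_trace_alg (P A W : E m →L[ℝ] E n) (G S : E m →L[ℝ] E m) (hG : adj G = G) (hS : adj S = S) :
    trc (adj P ∘L (W ∘L G + (2 : ℝ) • (A ∘L G ∘L S ∘L G)))
      = trc (adj (P ∘L G) ∘L W) + trc (S ∘L G ∘L (adj A ∘L P + adj P ∘L A) ∘L G) := by
  have e1 : trc (adj P ∘L W ∘L G) = trc (adj (P ∘L G) ∘L W) := by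
    rw [ContinuousLinearMap.adjoint_comp, hG, ← ContinuousLinearMap.comp_assoc, trc_comp_comm,
      ContinuousLinearMap.comp_assoc]
  have e2 : trc (S ∘L G ∘L (adj P ∘L A) ∘L G) = trc (adj P ∘L A ∘L G ∘L S ∘L G) := by
    have h : S ∘L G ∘L (adj P ∘L A) ∘L G = (S ∘L G) ∘L (adj P ∘L A ∘L G) := by
      simp only [ContinuousLinearMap.comp_assoc]
    rw [h, trc_comp_comm]
    simp only [ContinuousLinearMap.comp_assoc]
  have e3 : trc (S ∘L G ∘L (adj A ∘L P) ∘L G) = trc (adj P ∘L A ∘L G ∘L S ∘L G) := by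
    have h : adj (S ∘L G ∘L (adj A ∘L P) ∘L G) = G ∘L (adj P ∘L A ∘L G ∘L S) := by
      simp only [ContinuousLinearMap.adjoint_comp, ContinuousLinearMap.adjoint_adjoint, hG, hS,
        ContinuousLinearMap.comp_assoc]
    rw [← trc_adjoint, h, trc_comp_comm]
    simp only [ContinuousLinearMap.comp_assoc]
  rw [ContinuousLinearMap.comp_add, ContinuousLinearMap.comp_smul, trc_add, trc_smul, e1,
    ContinuousLinearMap.add_comp, ContinuousLinearMap.comp_add, ContinuousLinearMap.comp_add,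
    trc_add, e2, e3]
  ring

theorem sum_inner_PhiW {f : E m → E n} (hf : ContDiff ℝ 2 f) (φ w : E m → E n) (y : E m) :
    ∑ a, ⟪pdv a φ y, PhiW f w y (EuclideanSpace.single a 1)⟫
      = ∑ b, ⟪fderiv ℝ φ y (Gi (fderiv ℝ f y) (EuclideanSpace.single b 1)), pdv b w y⟫
        + ⟪∑ a, fderiv ℝ (fderiv ℝ f) y
            (Gi (fderiv ℝ f y)
              ((adj (fderiv ℝ f y) ∘L fderiv ℝ φ y + adj (fderiv ℝ φ y) ∘L fderiv ℝ f y)
                (Gi (fderiv ℝ f y) (EuclideanSpace.single a 1))))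
            (EuclideanSpace.single a 1), w y⟫ := by
  have hG : adj (Gi (fderiv ℝ f y)) = Gi (fderiv ℝ f y) := adjoint_gmat_inverse _
  have hS : adj (Tube.Sop f y (inV m n (w y))) = Tube.Sop f y (inV m n (w y)) := adjoint_Sop hf y _
  have h1 := lk_trace_alg (fderiv ℝ φ y) (fderiv ℝ f y) (fderiv ℝ w y) (Gi (fderiv ℝ f y))
    (Tube.Sop f y (inV m n (w y))) hG hS
  have h2 : ∑ a, ⟪pdv a φ y, PhiW f w y (EuclideanSpace.single a 1)⟫
      = trc (adj (fderiv ℝ φ y) ∘L PhiW f w y) := lk_sum_inner_eq_trc _ _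
  have h3 : ∑ b, ⟪fderiv ℝ φ y (Gi (fderiv ℝ f y) (EuclideanSpace.single b 1)), pdv b w y⟫
      = trc (adj (fderiv ℝ φ y ∘L Gi (fderiv ℝ f y)) ∘L fderiv ℝ w y) :=
    lk_sum_inner_eq_trc (fderiv ℝ φ y ∘L Gi (fderiv ℝ f y)) (fderiv ℝ w y)
  rw [h2, h3, sum_inner]
  refine h1.trans ?_
  congr 1
  rw [trc_eq_sum]
  refine Finset.sum_congr rfl fun a _ => ?_
  simp only [ContinuousLinearMap.comp_apply]
  rw [inner_Sop, inner_inV_left, prV_inV, real_inner_comm]
  rfl

/-! ### (d), (e)   (leaf L-Fit-Link-beltrami) -/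

/-- derivative of the metric `g = 1 + Aᵀ A` along the graph. -/
theorem lkb_hasFDerivAt_gmat {f : E m → E n} (hf : ContDiff ℝ 2 f) (y : E m) :
    ∃ D : E m →L[ℝ] E m →L[ℝ] E m, HasFDerivAt (fun y => gmat (fderiv ℝ f y)) D y ∧
      ∀ α, D α = adj (fderiv ℝ f y) ∘L D2 f y α + adj (D2 f y α) ∘L fderiv ℝ f y := by
  have h0 := hasFDerivAt_Du (y := y) hf
  have h1 := (((adjL m n).hasFDerivAt.comp y h0).clm_comp h0).const_add
    (ContinuousLinearMap.id ℝ (E m))
  refine ⟨_, h1, fun α => ?_⟩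
  simp only [_root_.add_apply, ContinuousLinearMap.comp_apply, ContinuousLinearMap.compL_apply,
    ContinuousLinearMap.flip_apply, Function.comp]
  rfl

/-- `D_α G = - G (Aᵀ D_α A + (D_α A)ᵀ A) G`. -/
theorem lkb_fderiv_Gi {f : E m → E n} (hf : ContDiff ℝ 2 f) (y α : E m) :
    fderiv ℝ (fun y => Gi (fderiv ℝ f y)) y α
      = - (Gi (fderiv ℝ f y) ∘L (adj (fderiv ℝ f y) ∘L D2 f y α
          + adj (D2 f y α) ∘L fderiv ℝ f y) ∘L Gi (fderiv ℝ f y)) := by
  obtain ⟨D, hD, hDα⟩ := lkb_hasFDerivAt_gmat hf y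
  have hG : HasFDerivAt (fun y => Gi (fderiv ℝ f y)) (fderiv ℝ (fun y => Gi (fderiv ℝ f y)) y) y :=
    ((contDiff_Gi_Df (k := 1) (by exact_mod_cast hf)).differentiable (by norm_num) y).hasFDerivAt
  have h1 := hD.clm_comp hG
  have e1 : (fun y => gmat (fderiv ℝ f y) ∘L Gi (fderiv ℝ f y))
      = fun _ => ContinuousLinearMap.id ℝ (E m) := funext fun y => gmat_comp_inverse _
  rw [e1] at h1
  have h2 := congrArg (fun T => T α) (h1.unique (hasFDerivAt_const _ _))
  simp only [_root_.add_apply, ContinuousLinearMap.comp_apply, ContinuousLinearMap.compL_apply,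
    ContinuousLinearMap.flip_apply, hDα, _root_.zero_apply] at h2
  set DG := fderiv ℝ (fun y => Gi (fderiv ℝ f y)) y α with hDG
  set A := fderiv ℝ f y with hA
  have h3 : Gi A ∘L (gmat A ∘L DG) = DG := by
    rw [← ContinuousLinearMap.comp_assoc]
    have : Gi A ∘L gmat A = ContinuousLinearMap.id ℝ (E m) := gmat_inverse_comp A
    rw [this, ContinuousLinearMap.id_comp]
  have h4 : gmat A ∘L DG = - ((adj A ∘L D2 f y α + adj (D2 f y α) ∘L A) ∘L Gi A) :=
    eq_neg_of_add_eq_zero_left h2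
  rw [← h3, h4, ContinuousLinearMap.comp_neg]

/-- `λ = ∑_b (D_b A)ᵀ A G e_b`. -/
theorem lkb_lamV {f : E m → E n} (hf : ContDiff ℝ 2 f) (y : E m) :
    lamV f y = ∑ b, adj (D2 f y (EuclideanSpace.single b 1))
      (fderiv ℝ f y (Gi (fderiv ℝ f y) (EuclideanSpace.single b 1))) := by
  conv_rhs => rw [← sum_inner_single (∑ b, adj (D2 f y (EuclideanSpace.single b 1))
      (fderiv ℝ f y (Gi (fderiv ℝ f y) (EuclideanSpace.single b 1))))]
  unfold lamV
  refine Finset.sum_congr rfl fun c _ => ?_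
  congr 1
  rw [trc_eq_sum, sum_inner]
  refine Finset.sum_congr rfl fun b _ => ?_
  rw [ContinuousLinearMap.adjoint_inner_left, D2_symm hf]
  simp only [ContinuousLinearMap.comp_apply]
  change ⟪Gi (fderiv ℝ f y) _, _⟫ = _
  rw [Gi_symm, ContinuousLinearMap.adjoint_inner_left, real_inner_comm]

/-- the Laplace-Beltrami operator of the coordinate functions. -/
theorem div_vd_Gi {f : E m → E n} (hf : ContDiff ℝ 3 f) (y : E m) :
    ∑ b, pdv b (fun y => vd f y • Gi (fderiv ℝ f y) (EuclideanSpace.single b 1)) y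
      = - (vd f y • Gi (fderiv ℝ f y) (adj (fderiv ℝ f y) (mssOp f y))) := by
  have hf2 : ContDiff ℝ 2 f := hf.of_le (by norm_num)
  set A := fderiv ℝ f y with hA
  set G := Gi A with hG
  have hvd : HasFDerivAt (vd f) (fderiv ℝ (vd f) y) y :=
    ((contDiff_vd (k := 1) (by exact_mod_cast hf2)).differentiable (by norm_num) y).hasFDerivAt
  have hGd : HasFDerivAt (fun y => Gi (fderiv ℝ f y)) (fderiv ℝ (fun y => Gi (fderiv ℝ f y)) y) y :=
    ((contDiff_Gi_Df (k := 1) (by exact_mod_cast hf2)).differentiable (by norm_num) y).hasFDerivAt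
  have hterm : ∀ b : Fin m,
      pdv b (fun y => vd f y • Gi (fderiv ℝ f y) (EuclideanSpace.single b 1)) y
        = vd f y • (⟪lamV f y, EuclideanSpace.single b 1⟫ • G (EuclideanSpace.single b 1)
          - G (adj A (D2 f y (EuclideanSpace.single b 1) (G (EuclideanSpace.single b 1))))
          - G (adj (D2 f y (EuclideanSpace.single b 1)) (A (G (EuclideanSpace.single b 1))))) := by
    intro b
    have h1 : HasFDerivAt (fun y => vd f y • Gi (fderiv ℝ f y) (EuclideanSpace.single b 1)) _ y :=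
      hvd.smul (hGd.clm_apply (hasFDerivAt_const (EuclideanSpace.single b (1 : ℝ) : E m) y))
    unfold pdv
    rw [h1.fderiv]
    simp only [_root_.add_apply, _root_.smul_apply, ContinuousLinearMap.smulRight_apply,
      ContinuousLinearMap.comp_apply, ContinuousLinearMap.flip_apply, _root_.zero_apply,
      map_zero, zero_add, lkb_fderiv_Gi hf2, fderiv_vd hf2, _root_.neg_apply, map_add,
      ← hA, ← hG]
    rw [smul_sub, smul_sub, smul_neg, smul_add, mul_smul]
    abel
  simp only [hterm]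
  rw [← Finset.smul_sum, Finset.sum_sub_distrib, Finset.sum_sub_distrib]
  have s1 : ∑ b, ⟪lamV f y, (EuclideanSpace.single b (1 : ℝ) : E m)⟫ • G (EuclideanSpace.single b 1)
      = G (lamV f y) := by
    conv_rhs => rw [← sum_inner_single (lamV f y)]
    simp only [map_sum, map_smul]
  have s2 : ∑ b, G (adj A (D2 f y (EuclideanSpace.single b 1) (G (EuclideanSpace.single b 1))))
      = G (adj A (mssOp f y)) := by
    rw [mssOp_eq]
    simp only [map_sum]
    refine Finset.sum_congr rfl fun b _ => ?_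
    rw [D2_symm hf2]
    rfl
  have s3 : ∑ b, G (adj (D2 f y (EuclideanSpace.single b 1)) (A (G (EuclideanSpace.single b 1))))
      = G (lamV f y) := by
    rw [lkb_lamV hf2]
    simp only [map_sum]
    rfl
  rw [s1, s2, s3]
  simp

theorem Gi_adj_mssOp (f : E m → E n) (y : E m) :
    Gi (fderiv ℝ f y) (adj (fderiv ℝ f y) (mssOp f y))
      = ∑ a, kap f a y • (EuclideanSpace.single a (1 : ℝ) : E m) := by
  conv_lhs => rw [← sum_inner_single (Gi (fderiv ℝ f y) (adj (fderiv ℝ f y) (mssOp f y)))]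
  refine Finset.sum_congr rfl fun a _ => ?_
  congr 1
  unfold kap
  rw [Gi_symm, ContinuousLinearMap.adjoint_inner_left]

theorem div_vd_Dphi {f φ : E m → E n} (hf : ContDiff ℝ 3 f) (hφ : ContDiff ℝ 2 φ) (y : E m) :
    ∑ b, pdv b (fun y => vd f y • fderiv ℝ φ y (Gi (fderiv ℝ f y) (EuclideanSpace.single b 1))) y
      = vd f y • ∑ b, fderiv ℝ (fderiv ℝ φ) y (Gi (fderiv ℝ f y) (EuclideanSpace.single b 1))
          (EuclideanSpace.single b 1)
        - vd f y • ∑ a, kap f a y • pdv a φ y := by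
  have hf2 : ContDiff ℝ 2 f := hf.of_le (by norm_num)
  have hvd : Differentiable ℝ (vd f) :=
    (contDiff_vd (k := 1) (by exact_mod_cast hf2)).differentiable (by norm_num)
  have hGd : Differentiable ℝ (fun y => Gi (fderiv ℝ f y)) :=
    (contDiff_Gi_Df (k := 1) (by exact_mod_cast hf2)).differentiable (by norm_num)
  have hV : ∀ b : Fin m, DifferentiableAt ℝ
      (fun y => vd f y • Gi (fderiv ℝ f y) (EuclideanSpace.single b 1)) y := fun b =>
    (hvd y).smul ((hGd y).clm_apply (differentiableAt_const _))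
  have hterm : ∀ b : Fin m,
      pdv b (fun y => vd f y • fderiv ℝ φ y (Gi (fderiv ℝ f y) (EuclideanSpace.single b 1))) y
        = fderiv ℝ φ y
            (pdv b (fun y => vd f y • Gi (fderiv ℝ f y) (EuclideanSpace.single b 1)) y)
          + vd f y • fderiv ℝ (fderiv ℝ φ) y (Gi (fderiv ℝ f y) (EuclideanSpace.single b 1))
              (EuclideanSpace.single b 1) := by
    intro b
    have e : (fun y => vd f y • fderiv ℝ φ y (Gi (fderiv ℝ f y) (EuclideanSpace.single b 1)))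
        = fun y => fderiv ℝ φ y (vd f y • Gi (fderiv ℝ f y) (EuclideanSpace.single b 1)) := by
      funext z
      rw [map_smul]
    have h1 := (hasFDerivAt_Du (y := y) hφ).clm_apply (hV b).hasFDerivAt
    rw [e]
    unfold pdv
    rw [h1.fderiv]
    simp only [_root_.add_apply, ContinuousLinearMap.comp_apply, map_smul, _root_.smul_apply,
      ContinuousLinearMap.flip_apply]
    rw [D2_symm hφ]
    rfl
  simp only [hterm]
  rw [Finset.sum_add_distrib, ← map_sum, div_vd_Gi hf, Gi_adj_mssOp, ← Finset.smul_sum, map_neg,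
    map_smul, map_sum]
  simp only [map_smul]
  unfold pdv
  abel

/-! ### (f), (g)   (leaf L-Fit-Link-main) -/

/-- the pointwise identity behind `link`. -/
theorem lkm_pointwise {f φ w : E m → E n} (hf : ContDiff ℝ 3 f) (hφ : ContDiff ℝ 2 φ) (y : E m) :
    ⟪(pairCoef f f).op φ y, vd f y • w y⟫
      = ∑ b, ⟪pdv b (fun y => vd f y • fderiv ℝ φ y
            (Gi (fderiv ℝ f y) (EuclideanSpace.single b 1))) y, w y⟫
        + ∑ a, ⟪pdv a φ y, (vd f y * kap f a y) • w y⟫
        - ∑ a, ⟪pdv a φ y, (vd f y • PhiW f w y) (EuclideanSpace.single a 1)⟫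
        + ∑ b, ⟪vd f y • fderiv ℝ φ y (Gi (fderiv ℝ f y) (EuclideanSpace.single b 1)),
            pdv b w y⟫ := by
  have hf2 : ContDiff ℝ 2 f := hf.of_le (by norm_num)
  have h1 := pairCoef_op_eq f f hφ y
  have h2 := sum_inner_PhiW hf2 φ w y
  have h3 := div_vd_Dphi hf hφ y
  rw [← sum_inner, h3, h1]
  simp only [_root_.smul_apply, real_inner_smul_right, real_inner_smul_left, ← Finset.mul_sum, h2,
    inner_sub_left, sum_inner, mul_assoc]
  ring

theorem lkm_contDiff_F {f φ : E m → E n} (hf : ContDiff ℝ 2 f) (hφ : ContDiff ℝ 2 φ) (b : Fin m) :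
    ContDiff ℝ 1 (fun y => vd f y • fderiv ℝ φ y
      (Gi (fderiv ℝ f y) (EuclideanSpace.single b 1))) := by
  have h1 : ContDiff ℝ 1 (vd f) := by exact_mod_cast contDiff_vd (k := 1) (by exact_mod_cast hf)
  have h2 : ContDiff ℝ 1 (fderiv ℝ φ) := by
    exact_mod_cast contDiff_Du (k := 1) (by exact_mod_cast hφ)
  have h3 : ContDiff ℝ 1 (fun y => Gi (fderiv ℝ f y)) := by
    exact_mod_cast contDiff_Gi_Df (k := 1) (by exact_mod_cast hf)
  exact h1.smul (h2.clm_apply (h3.clm_apply contDiff_const))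

theorem lkm_compact_F {f φ : E m → E n} (hφc : HasCompactSupport φ) (b : Fin m) :
    HasCompactSupport (fun y => vd f y • fderiv ℝ φ y
      (Gi (fderiv ℝ f y) (EuclideanSpace.single b 1))) := by
  refine (hφc.fderiv ℝ).mono ?_
  intro y hy
  rw [Function.mem_support] at hy ⊢
  intro h0
  apply hy
  rw [h0]
  simp

theorem lkm_contDiff_K {f w : E m → E n} (hf : ContDiff ℝ 4 f) (hw : ContDiff ℝ 2 w) (a : Fin m) :
    ContDiff ℝ 2 (fun y => (vd f y * kap f a y) • w y) := by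
  have h1 : ContDiff ℝ 2 (vd f) := by
    exact_mod_cast contDiff_vd (k := 2) (hf.of_le (by norm_num))
  have h2 : ContDiff ℝ 2 (kap f a) := by
    exact_mod_cast contDiff_kap (k := 2) (by exact_mod_cast hf) a
  exact (h1.mul h2).smul hw

/-- **the adjoint identity**, integrated form. -/
theorem link {f φ w : E m → E n} (hf : ContDiff ℝ 4 f) (hφ : ContDiff ℝ 2 φ)
    (hφc : HasCompactSupport φ) (hw : ContDiff ℝ 2 w) :
    ∫ y, ⟪(pairCoef f f).op φ y, vd f y • w y⟫
      = ∫ y, ⟪φ y, vd f y • LL f w y - ∑ a, pdv a (fun y => (vd f y * kap f a y) • w y) y⟫ := by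
  have hf3 : ContDiff ℝ 3 f := hf.of_le (by norm_num)
  have hf2 : ContDiff ℝ 2 f := hf.of_le (by norm_num)
  have hφ1 : ContDiff ℝ 1 φ := hφ.of_le (by norm_num)
  have hw1 : ContDiff ℝ 1 w := hw.of_le (by norm_num)
  have c0 : ∀ {G : E m → E n}, ContDiff ℝ 1 G → ∀ a, Continuous (pdv a G) := fun hG a =>
    (adj_contDiff_pdv (k := 0) (by exact_mod_cast hG) a).continuous
  have hvd1 : ContDiff ℝ 1 (vd f) := by
    exact_mod_cast contDiff_vd (k := 1) (by exact_mod_cast hf2)
  have hΨ : ContDiff ℝ 1 (fun y => vd f y • PhiW f w y) := by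
    have : ContDiff ℝ 1 (PhiW f w) := by
      exact_mod_cast contDiff_PhiW (k := 1) (by exact_mod_cast hf3) (by exact_mod_cast hw)
    exact hvd1.smul this
  have hK : ∀ a, ContDiff ℝ 1 (fun y => (vd f y * kap f a y) • w y) := fun a =>
    (lkm_contDiff_K hf hw a).of_le (by norm_num)
  have hF := fun b => lkm_contDiff_F hf2 hφ b
  have hFc := fun b => lkm_compact_F (f := f) hφc b
  -- integrability of the five families
  have iZ : ∀ b, Integrable (fun y => ⟪pdv b (fun y => vd f y • fderiv ℝ φ y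
      (Gi (fderiv ℝ f y) (EuclideanSpace.single b 1))) y, w y⟫) := fun b =>
    adj_integrable_inner (c0 (hF b) b) hw.continuous (adj_hasCompactSupport_pdv (hFc b) b)
  have iU : ∀ a, Integrable (fun y => ⟪pdv a φ y, (vd f y * kap f a y) • w y⟫) := fun a =>
    adj_integrable_inner (c0 hφ1 a) (hK a).continuous (adj_hasCompactSupport_pdv hφc a)
  have iX : ∀ a, Integrable (fun y => ⟪pdv a φ y,
      (vd f y • PhiW f w y) (EuclideanSpace.single a 1)⟫) := fun a =>
    adj_integrable_inner (c0 hφ1 a) (hΨ.continuous.clm_apply continuous_const)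
      (adj_hasCompactSupport_pdv hφc a)
  have iY : ∀ b, Integrable (fun y => ⟪vd f y • fderiv ℝ φ y
      (Gi (fderiv ℝ f y) (EuclideanSpace.single b 1)), pdv b w y⟫) := fun b =>
    adj_integrable_inner (hF b).continuous (c0 hw1 b) (hFc b)
  have iV : ∀ a, Integrable (fun y => ⟪φ y, pdv a (fun y => (vd f y * kap f a y) • w y) y⟫) :=
    fun a => adj_integrable_inner hφ.continuous (c0 (hK a) a) hφc
  have iL : Integrable (fun y => ⟪φ y, vd f y • LL f w y⟫) :=
    adj_integrable_inner hφ.continuous (hvd1.continuous.smul (continuous_LL hf3 hw)) hφc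
  -- the three integrations by parts
  have e1 : ∀ b, ∫ y, ⟪pdv b (fun y => vd f y • fderiv ℝ φ y
      (Gi (fderiv ℝ f y) (EuclideanSpace.single b 1))) y, w y⟫
      = - ∫ y, ⟪vd f y • fderiv ℝ φ y (Gi (fderiv ℝ f y) (EuclideanSpace.single b 1)),
          pdv b w y⟫ := fun b => integral_inner_pdv (hF b) hw1 (hFc b) b
  have e2 : ∀ a, ∫ y, ⟪pdv a φ y, (vd f y * kap f a y) • w y⟫
      = - ∫ y, ⟪φ y, pdv a (fun y => (vd f y * kap f a y) • w y) y⟫ := fun a =>
    integral_inner_pdv hφ1 (hK a) hφc a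
  have e3 : ∫ y, ⟪φ y, vd f y • LL f w y⟫
      = - ∫ y, ∑ a, ⟪pdv a φ y, (vd f y • PhiW f w y) (EuclideanSpace.single a 1)⟫ := by
    simp only [vd_smul_LL hf3 hw]
    exact integral_inner_dvg hφ1 hφc hΨ
  have sZ : Integrable (fun y => ∑ b, ⟪pdv b (fun y => vd f y • fderiv ℝ φ y
      (Gi (fderiv ℝ f y) (EuclideanSpace.single b 1))) y, w y⟫) :=
    integrable_finsetSum _ fun b _ => iZ b
  have sU : Integrable (fun y => ∑ a, ⟪pdv a φ y, (vd f y * kap f a y) • w y⟫) :=
    integrable_finsetSum _ fun a _ => iU a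
  have sX : Integrable (fun y => ∑ a, ⟪pdv a φ y,
      (vd f y • PhiW f w y) (EuclideanSpace.single a 1)⟫) :=
    integrable_finsetSum _ fun a _ => iX a
  have sY : Integrable (fun y => ∑ b, ⟪vd f y • fderiv ℝ φ y
      (Gi (fderiv ℝ f y) (EuclideanSpace.single b 1)), pdv b w y⟫) :=
    integrable_finsetSum _ fun b _ => iY b
  have sV : Integrable (fun y => ∑ a, ⟪φ y, pdv a (fun y => (vd f y * kap f a y) • w y) y⟫) :=
    integrable_finsetSum _ fun a _ => iV a
  have sZU : Integrable (fun y => ∑ b, ⟪pdv b (fun y => vd f y • fderiv ℝ φ y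
      (Gi (fderiv ℝ f y) (EuclideanSpace.single b 1))) y, w y⟫
      + ∑ a, ⟪pdv a φ y, (vd f y * kap f a y) • w y⟫) := sZ.add sU
  have sZUX : Integrable (fun y => ∑ b, ⟪pdv b (fun y => vd f y • fderiv ℝ φ y
      (Gi (fderiv ℝ f y) (EuclideanSpace.single b 1))) y, w y⟫
      + ∑ a, ⟪pdv a φ y, (vd f y * kap f a y) • w y⟫
      - ∑ a, ⟪pdv a φ y, (vd f y • PhiW f w y) (EuclideanSpace.single a 1)⟫) := sZU.sub sX
  simp only [lkm_pointwise hf3 hφ, inner_sub_right, inner_sum]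
  rw [integral_add sZUX sY, integral_sub sZU sX, integral_add sZ sU, integral_sub iL sV, e3,
    integral_finsetSum _ fun b _ => iZ b, integral_finsetSum _ fun a _ => iU a,
    integral_finsetSum _ fun b _ => iY b, integral_finsetSum _ fun a _ => iV a]
  simp only [e1, e2, Finset.sum_neg_distrib]
  ring

/-- **the adjoint identity**, pointwise form. -/
theorem adj_eq {f w : E m → E n} (hf : ContDiff ℝ 4 f) (hreg : (pairCoef f f).Reg 2)
    (hw : ContDiff ℝ 2 w) (y : E m) :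
    (pairCoef f f).adj (fun y => vd f y • w y) y
      = vd f y • LL f w y - ∑ a, pdv a (fun y => (vd f y * kap f a y) • w y) y := by
  have hf3 : ContDiff ℝ 3 f := hf.of_le (by norm_num)
  have c0 : ∀ {G : E m → E n}, ContDiff ℝ 1 G → ∀ a, Continuous (pdv a G) := fun hG a =>
    (adj_contDiff_pdv (k := 0) (by exact_mod_cast hG) a).continuous
  have hvd2 : ContDiff ℝ 2 (vd f) := by
    exact_mod_cast contDiff_vd (k := 2) (hf.of_le (by norm_num))
  have hζ : ContDiff ℝ 2 (fun y => vd f y • w y) := hvd2.smul hw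
  have hK : ∀ a, ContDiff ℝ 1 (fun y => (vd f y * kap f a y) • w y) := fun a =>
    (lkm_contDiff_K hf hw a).of_le (by norm_num)
  have hc1 : Continuous ((pairCoef f f).adj (fun y => vd f y • w y)) :=
    (pairCoef f f).continuous_adj hreg hζ
  have hc2 : Continuous (fun y => vd f y • LL f w y
      - ∑ a, pdv a (fun y => (vd f y * kap f a y) • w y) y) :=
    (hvd2.continuous.smul (continuous_LL hf3 hw)).sub
      (continuous_finsetSum _ fun a _ => c0 (hK a) a)
  have hint : ∀ φ : E m → E n, ContDiff ℝ 2 φ → HasCompactSupport φ →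
      ∫ y, ⟪φ y, (pairCoef f f).adj (fun y => vd f y • w y) y - (vd f y • LL f w y
        - ∑ a, pdv a (fun y => (vd f y * kap f a y) • w y) y)⟫ = 0 := by
    intro φ hφ hφc
    have h1 := (pairCoef f f).integral_op_inner hreg hφ hφc hζ
    have h2 := link hf hφ hφc hw
    have e : ∀ y, ⟪φ y, (pairCoef f f).adj (fun y => vd f y • w y) y - (vd f y • LL f w y
        - ∑ a, pdv a (fun y => (vd f y * kap f a y) • w y) y)⟫
        = ⟪φ y, (pairCoef f f).adj (fun y => vd f y • w y) y⟫ - ⟪φ y, vd f y • LL f w y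
        - ∑ a, pdv a (fun y => (vd f y * kap f a y) • w y) y⟫ := fun y => inner_sub_right _ _ _
    simp only [e]
    rw [integral_sub (adj_integrable_inner hφ.continuous hc1 hφc)
      (adj_integrable_inner hφ.continuous hc2 hφc), ← h1, h2, sub_self]
  have hcomp : ∀ α : Fin n, (fun y => ⟪(pairCoef f f).adj (fun y => vd f y • w y) y
      - (vd f y • LL f w y - ∑ a, pdv a (fun y => (vd f y * kap f a y) • w y) y),
        (EuclideanSpace.single α (1 : ℝ) : E n)⟫) = 0 := by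
    intro α
    have hc : Continuous (fun y => ⟪(pairCoef f f).adj (fun y => vd f y • w y) y
      - (vd f y • LL f w y - ∑ a, pdv a (fun y => (vd f y * kap f a y) • w y) y),
        (EuclideanSpace.single α (1 : ℝ) : E n)⟫) := (hc1.sub hc2).inner continuous_const
    rw [← hc.ae_eq_iff_eq (volume : Measure (E m)) continuous_zero]
    refine ae_eq_zero_of_integral_contDiff_smul_eq_zero hc.locallyIntegrable fun g hg hgc => ?_
    have h3 := hint (fun y => g y • (EuclideanSpace.single α (1 : ℝ) : E n))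
      ((hg.of_le (by norm_cast)).smul contDiff_const) (hgc.smul_right)
    rw [← h3]
    refine integral_congr_ae (Filter.Eventually.of_forall fun y => ?_)
    simp only [real_inner_smul_left, smul_eq_mul]
    rw [real_inner_comm]
  have h0 : (pairCoef f f).adj (fun y => vd f y • w y) y - (vd f y • LL f w y
      - ∑ a, pdv a (fun y => (vd f y * kap f a y) • w y) y) = 0 := by
    rw [← sum_inner_single ((pairCoef f f).adj (fun y => vd f y • w y) y - (vd f y • LL f w y
      - ∑ a, pdv a (fun y => (vd f y * kap f a y) • w y) y))]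
    refine Finset.sum_eq_zero fun α _ => ?_
    have := congrFun (hcomp α) y
    simp only [Pi.zero_apply] at this
    rw [this, zero_smul]
  exact sub_eq_zero.1 h0

/-- the form used in `Corr/Main`: `ζ = √g w`. -/
theorem adj_eq' {f ζ : E m → E n} (hf : ContDiff ℝ 4 f) (hreg : (pairCoef f f).Reg 2)
    (hζ : ContDiff ℝ 2 ζ) (y : E m) :
    (vd f y)⁻¹ • (pairCoef f f).adj ζ y
      = LL f (fun y => (vd f y)⁻¹ • ζ y) y - (vd f y)⁻¹ • rW f ζ y := by
  have hpos : ∀ z, vd f z ≠ 0 := fun z => (lt_of_lt_of_le one_pos (one_le_vd f z)).ne'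
  have hvd2 : ContDiff ℝ 2 (vd f) := by
    exact_mod_cast contDiff_vd (k := 2) (hf.of_le (by norm_num))
  have hw : ContDiff ℝ 2 (fun y => (vd f y)⁻¹ • ζ y) := (hvd2.inv hpos).smul hζ
  have h1 := adj_eq hf hreg hw y
  have e1 : (fun y => vd f y • (vd f y)⁻¹ • ζ y) = ζ := by
    funext z
    rw [smul_smul, mul_inv_cancel₀ (hpos z), one_smul]
  have e2 : ∀ a, (fun y => (vd f y * kap f a y) • (vd f y)⁻¹ • ζ y) = fun y => kap f a y • ζ y := by
    intro a
    funext z
    rw [smul_smul]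
    congr 1
    field_simp [hpos z]
  rw [e1] at h1
  simp only [e2] at h1
  rw [h1, smul_sub, smul_smul, inv_mul_cancel₀ (hpos y), one_smul]
  rfl

end Claimed.Agent.R322.Fit.Corr
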