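import Claimed.Agent.R322.Fit.Corr.Rho

/-!
# Row 322, Fit/Corr/Main: the correction of a fit from the weak Jacobi estimate and the mass comparison   (architect helper281)

**`corr`** = the analytic core of one step of AE Lemma 7.1.  Data: a measure `μ` on `E (m+n)` with mass `≤ M ℓ^m` and height `|z| ≤ h` over `ball x (R₀ ℓ)` (`z = zet f`),
`f` with small slopes in the Wiener scale, `mssOp f = Ξ` on the ball, `ℓ vAl (s-2) ℓ Ξ ≤ ξ`, the weak Jacobi estimate `JacB` (constant `bJ`), the mass comparison `MassB` (constant `σ`).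
Output: `v` (global, compactly supported, `A^s`) with `mss'(f) v = - Ξ + ρ` on `ball x (R₁ ℓ)`, `ρ` as small as we like, `vAl s ℓ v ≤ C (M h + Bq + ℓ ξ)`, and the first moment
of `z - v ∘ π` is `≤ C ℓ^m (Bq + σ (M h + Bq + ℓ ξ)) A`, where `Bq = bJ ℓ² / ℓ^m + (M h / ℓ + σ) ξ ℓ + ℓ² τ`.
In the application `h = a ℓ`, `bJ = C a² ℓ^{m-1}`, `σ = C a`, `ξ = K a²`: `vAl s ℓ v ≤ C a ℓ`, moment `≤ C a² ℓ^{m+1} A`.

CONSTRUCTION.  `k₀ = 1/(Q cH)`, `Sg = {X over the ball, |z| ≤ h}`, `cf X = k₀ z(X) / √g(π X)`, `uu = mol φ (μ ⌞ Sg) π cf` (mollification at the radius `δ = φ.rOut`), `L = (pairCoef f f).op`.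

PLAN of `weak_hyp` (`ζ` a smooth test of order `m + 4`, `w = ζ/√g`, `η = ⟪mssOp f, w⟫`):
  `∫ ⟪L uu + Ξ, ζ⟫ = [∫ ⟪uu, adj ζ⟫ - ∫ ⟪cf, adj ζ ∘ π⟫ dμ_S]              (`Coef.integral_op_inner`; `abs_integral_mol_sub_le`, `Coef.adj_lip`, `exists_vAl_test_le`)
                   + k₀ [∫ (⟪z, LL f w ∘ π⟫ + η ∘ π) dμ]                      (`integral_cf`, `adj_eq'`; `JacB`, `A_w ≤ 4 C_vd A` by `smul_test_bound`, `exists_vd_bounds`)
                   - k₀ ∫ ⟪z, (rW f ζ/√g) ∘ π⟫ dμ                             (`rW_bound`, `|z| ≤ h`, mass)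
                   - k₀ [∫ η ∘ π dμ - Q ∫ η √g dμH]                           (`MassB`, `eta_bound`)`,
  because `k₀ Q ∫ η √g dμH = ∫ ⟪mssOp f, ζ⟫ dy = ∫ ⟪Ξ, ζ⟫ dy` (`hausdorff_eq_cH`).
PLAN of `moment` (`η` a test of class `C^q`):
  `∫ ⟪z - v ∘ π, η ∘ π⟫ dμ = [∫ ⟪z, η ∘ π⟫ dμ - k₀⁻¹ ∫ ⟪uu, √g η⟫ dy]        (`abs_integral_mol_sub_le` for `ψ = √g η`, Lipschitz constant `2 C_vd A / ℓ`; `integral_cf`)
                            - k₀⁻¹ ∫ ⟪v - uu, √g η⟫ dy                          (`WeakV.of_contDiff`, `smul_test_bound`)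
                            - [∫ ⟪v, η⟫ ∘ π dμ - Q ∫ ⟪v, η⟫ √g dμH]`            (`MassB`; `|v| ≤ V`, `ℓ |Dv| ≤ 2π V`).
PLAN of `corr`: `σ₀` = minimum of the thresholds of `pairCoef_small` (so that `sizel ≤ min σ_pde 1`), `rW_bound`, `slope_bounds` (`K = 2m+5`); `δ = τ ℓ³ / (M h + 1)`;
  `Main.correction` with `N = m + 4`, `F₀ = - Ξ`, `a = k₀ h M ℓ^m` (`integral_norm_mol_le`, `integral_norm_cf_le`), `b` from `weak_hyp`; then `moment`.
-/

set_option autoImplicit false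

open scoped ENNReal ContDiff Topology RealInnerProductSpace
open MeasureTheory

namespace Claimed.Agent.R322.Fit.Corr

open Claimed.Agent.R322.Tube Claimed.Agent.R322.Fit.Fits

variable {m n : ℕ}

/-- the part of the region over `ball x r` where the height bound holds. -/
def Sg (f : E m → E n) (x : E m) (r h : ℝ) : Set (E (m + n)) :=
  ovr m n x r ∩ {X | ‖zet f X‖ ≤ h}

/-- the density `k₀ z / √g`. -/
noncomputable def cf (f : E m → E n) (k₀ : ℝ) (X : E (m + n)) : E n :=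
  (k₀ * (vd f (prH m n X))⁻¹) • zet f X

/-- the mollified first moment. -/
noncomputable def uu (φ : ContDiffBump (0 : E m)) (μ : Measure (E (m + n))) (f : E m → E n)
    (x : E m) (r h k₀ : ℝ) : E m → E n :=
  mol φ (μ.restrict (Sg f x r h)) (prH m n) (cf f k₀)

/-- a.e. variant of `tsupport_mol_subset` (proved). -/
theorem tsupport_mol_subset_ae {Ω : Type*} [MeasurableSpace Ω] (φ : ContDiffBump (0 : E m))
    (μ : Measure Ω) {π : Ω → E m} {c : Ω → E n} {x : E m} {r : ℝ}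
    (h0 : ∀ᵐ q ∂μ, π q ∉ Metric.closedBall x r → c q = 0) :
    tsupport (mol φ μ π c) ⊆ Metric.closedBall x (r + φ.rOut) := by
  refine closure_minimal (fun y hy => ?_) Metric.isClosed_closedBall
  by_contra hcon
  apply hy
  unfold mol
  refine integral_eq_zero_of_ae (h0.mono fun q h0q => ?_)
  by_cases hq : π q ∈ Metric.closedBall x r
  · have h1 : y - π q ∉ Function.support (φ.normed volume) := by
      rw [ContDiffBump.support_normed_eq, Metric.mem_ball, dist_zero_right, not_lt]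
      rw [Metric.mem_closedBall] at hq hcon
      rw [not_le] at hcon
      have h2 : dist y x ≤ dist y (π q) + dist (π q) x := dist_triangle _ _ _
      rw [dist_eq_norm y (π q)] at h2
      linarith
    rw [Function.notMem_support] at h1
    simp [h1]
  · simp [h0q hq]

/-! ### leaf L-Fit-Corr-basic -/

theorem crb_continuous_zet {f : E m → E n} (hf : Continuous f) : Continuous (zet f) :=
  (prV m n).continuous.sub (hf.comp (prH m n).continuous)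

theorem crb_isOpen_ovr (m n : ℕ) (x : E m) (r : ℝ) : IsOpen (ovr m n x r) :=
  isOpen_lt (((prH m n).continuous.sub continuous_const).norm) continuous_const

theorem crb_notMem_ball {x : E m} {r : ℝ} {X : E (m + n)} (hX : X ∉ ovr m n x r) :
    prH m n X ∉ Metric.ball x r := fun h => hX (by
  rwa [Metric.mem_ball, dist_eq_norm] at h)

theorem crb_lt_top {μ : Measure (E (m + n))} {x : E m} {r B : ℝ}
    (hμ : μ (ovr m n x r) ≤ ENNReal.ofReal B) : μ (ovr m n x r) < ⊤ :=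
  lt_of_le_of_lt hμ ENNReal.ofReal_lt_top

theorem measurableSet_Sg {f : E m → E n} (hf : Continuous f) (x : E m) (r h : ℝ) :
    MeasurableSet (Sg f x r h) :=
  (crb_isOpen_ovr m n x r).measurableSet.inter
    (isClosed_le (crb_continuous_zet hf).norm continuous_const).measurableSet

theorem crb_inv_vd (f : E m → E n) (y : E m) : 0 < (vd f y)⁻¹ ∧ (vd f y)⁻¹ ≤ 1 := by
  have h := one_le_vd f y
  exact ⟨inv_pos.2 (by linarith), inv_le_one_of_one_le₀ h⟩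

theorem crb_continuous_cf {f : E m → E n} (hf : ContDiff ℝ 2 f) (k₀ : ℝ) :
    Continuous (cf f k₀) := by
  have h1 : Continuous (vd f) := (contDiff_vd (k := 1) (by exact_mod_cast hf)).continuous
  have h2 : Continuous fun X : E (m + n) => (vd f (prH m n X))⁻¹ :=
    (h1.comp (prH m n).continuous).inv₀ fun X => by
      have := one_le_vd f (prH m n X)
      show vd f (prH m n X) ≠ 0
      linarith
  exact (continuous_const.mul h2).smul (crb_continuous_zet hf.continuous)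

theorem crb_norm_cf_le (f : E m → E n) {x : E m} {r h : ℝ} (k₀ : ℝ) {X : E (m + n)}
    (hX : X ∈ Sg f x r h) : ‖cf f k₀ X‖ ≤ |k₀| * h := by
  obtain ⟨h1, h2⟩ := crb_inv_vd f (prH m n X)
  have hz : ‖zet f X‖ ≤ h := hX.2
  unfold cf
  rw [norm_smul, Real.norm_eq_abs, abs_mul, abs_of_pos h1]
  calc |k₀| * (vd f (prH m n X))⁻¹ * ‖zet f X‖ ≤ |k₀| * 1 * h := by
        gcongr
    _ = |k₀| * h := by ring

theorem crb_Sg_lt_top {μ : Measure (E (m + n))} (f : E m → E n) {x : E m} {r B : ℝ} (h : ℝ)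
    (hμ : μ (ovr m n x r) ≤ ENNReal.ofReal B) : μ (Sg f x r h) < ⊤ :=
  lt_of_le_of_lt (measure_mono Set.inter_subset_left) (crb_lt_top hμ)

theorem integrable_cf {μ : Measure (E (m + n))} {f : E m → E n} (hf : ContDiff ℝ 2 f) {x : E m}
    {r h k₀ B : ℝ} (hμ : μ (ovr m n x r) ≤ ENNReal.ofReal B) :
    Integrable (cf f k₀) (μ.restrict (Sg f x r h)) :=
  IntegrableOn.of_bound (crb_Sg_lt_top f h hμ) (crb_continuous_cf hf k₀).aestronglyMeasurable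
    (|k₀| * h) ((ae_restrict_iff' (measurableSet_Sg hf.continuous x r h)).2
      (ae_of_all _ fun _ hX => crb_norm_cf_le f k₀ hX))

theorem integral_norm_cf_le {μ : Measure (E (m + n))} {f : E m → E n} (hf : ContDiff ℝ 2 f)
    {x : E m} {r h k₀ B : ℝ} (hh : 0 ≤ h) (hk : 0 ≤ k₀) (hB : 0 ≤ B)
    (hμ : μ (ovr m n x r) ≤ ENNReal.ofReal B) :
    ∫ X, ‖cf f k₀ X‖ ∂(μ.restrict (Sg f x r h)) ≤ k₀ * h * B := by
  have h1 := norm_setIntegral_le_of_norm_le_const (μ := μ) (s := Sg f x r h)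
    (f := fun X => ‖cf f k₀ X‖) (C := k₀ * h) (crb_Sg_lt_top f h hμ) (fun X hX => by
      rw [norm_norm]
      have := crb_norm_cf_le f k₀ hX
      rwa [abs_of_nonneg hk] at this)
  refine ((le_abs_self _).trans h1).trans ?_
  refine mul_le_mul_of_nonneg_left ?_ (by positivity)
  exact ENNReal.toReal_le_of_le_ofReal hB ((measure_mono Set.inter_subset_left).trans hμ)

/-- integrability of a function vanishing off `ovr` and bounded a.e. on it -/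
theorem crb_integrable {μ : Measure (E (m + n))} {x : E m} {r B : ℝ}
    (hμ : μ (ovr m n x r) ≤ ENNReal.ofReal B) {g : E (m + n) → ℝ} (hg : Continuous g)
    (h0 : ∀ X, X ∉ ovr m n x r → g X = 0) {D : ℝ} (hD : ∀ᵐ X ∂μ, X ∈ ovr m n x r → |g X| ≤ D) :
    Integrable g μ := by
  have h1 : IntegrableOn g (ovr m n x r) μ :=
    IntegrableOn.of_bound (crb_lt_top hμ) hg.aestronglyMeasurable D
      ((ae_restrict_iff' (crb_isOpen_ovr m n x r).measurableSet).2 hD)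
  exact h1.integrable_of_forall_notMem_eq_zero h0

/-- the corresponding bound of the integral -/
theorem crb_abs_integral_le {μ : Measure (E (m + n))} {x : E m} {r B : ℝ} (hB : 0 ≤ B)
    (hμ : μ (ovr m n x r) ≤ ENNReal.ofReal B) {g : E (m + n) → ℝ}
    (h0 : ∀ X, X ∉ ovr m n x r → g X = 0) {D : ℝ} (hD0 : 0 ≤ D)
    (hD : ∀ᵐ X ∂μ, X ∈ ovr m n x r → |g X| ≤ D) :
    |∫ X, g X ∂μ| ≤ D * B := by
  have hO := (crb_isOpen_ovr m n x r).measurableSet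
  have hi : Integrable ((ovr m n x r).indicator fun _ => D) μ :=
    (integrable_indicator_iff hO).2 (integrableOn_const (crb_lt_top hμ).ne)
  rw [← Real.norm_eq_abs]
  refine (norm_integral_le_of_norm_le hi ?_).trans ?_
  · filter_upwards [hD] with X hX
    by_cases hXo : X ∈ ovr m n x r
    · rw [Set.indicator_of_mem hXo, Real.norm_eq_abs]; exact hX hXo
    · rw [Set.indicator_of_notMem hXo, h0 X hXo, norm_zero]
  · rw [integral_indicator_const _ hO, smul_eq_mul, mul_comm]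
    exact mul_le_mul_of_nonneg_left (ENNReal.toReal_le_of_le_ofReal hB hμ) hD0

/-- integrability of the pairings with `z`. -/
theorem integrable_zet_inner {μ : Measure (E (m + n))} {f : E m → E n} (hf : Continuous f)
    {x : E m} {r h B : ℝ} (hμ : μ (ovr m n x r) ≤ ENNReal.ofReal B)
    (hz : ∀ᵐ X ∂μ, X ∈ ovr m n x r → ‖zet f X‖ ≤ h) {ψ : E m → E n} (hψ : Continuous ψ)
    (hψc : HasCompactSupport ψ) (hψ0 : ∀ y, y ∉ Metric.ball x r → ψ y = 0) :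
    Integrable (fun X => ⟪zet f X, ψ (prH m n X)⟫) μ := by
  obtain ⟨D, hD⟩ := hψ.bounded_above_of_compact_support hψc
  refine crb_integrable hμ ((crb_continuous_zet hf).inner (hψ.comp (prH m n).continuous))
    (fun X hX => by rw [hψ0 _ (crb_notMem_ball hX), inner_zero_right]) (D := h * D) ?_
  filter_upwards [hz] with X hX hXo
  exact (abs_real_inner_le_norm _ _).trans
    (mul_le_mul (hX hXo) (hD _) (norm_nonneg _) ((norm_nonneg _).trans (hX hXo)))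

theorem abs_integral_zet_inner_le {μ : Measure (E (m + n))} {f : E m → E n} (hf : Continuous f)
    {x : E m} {r h B D : ℝ} (hh : 0 ≤ h) (hB : 0 ≤ B) (hμ : μ (ovr m n x r) ≤ ENNReal.ofReal B)
    (hz : ∀ᵐ X ∂μ, X ∈ ovr m n x r → ‖zet f X‖ ≤ h) {ψ : E m → E n} (hψ : Continuous ψ)
    (hψ0 : ∀ y, y ∉ Metric.ball x r → ψ y = 0) (hD : ∀ y, ‖ψ y‖ ≤ D) :
    |∫ X, ⟪zet f X, ψ (prH m n X)⟫ ∂μ| ≤ h * B * D := by
  have hD0 : 0 ≤ D := (norm_nonneg _).trans (hD 0)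
  have := crb_abs_integral_le hB hμ (g := fun X => ⟪zet f X, ψ (prH m n X)⟫)
    (fun X hX => by rw [hψ0 _ (crb_notMem_ball hX), inner_zero_right]) (D := h * D)
    (by positivity) (by
      filter_upwards [hz] with X hX hXo
      exact (abs_real_inner_le_norm _ _).trans (mul_le_mul (hX hXo) (hD _) (norm_nonneg _) hh))
  calc _ ≤ h * D * B := this
    _ = h * B * D := by ring

/-- scalar functions of `π X`. -/
theorem integrable_comp_prH {μ : Measure (E (m + n))} {x : E m} {r B : ℝ}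
    (hμ : μ (ovr m n x r) ≤ ENNReal.ofReal B) {η : E m → ℝ} (hη : Continuous η)
    (hηc : HasCompactSupport η) (hη0 : ∀ y, y ∉ Metric.ball x r → η y = 0) :
    Integrable (fun X => η (prH m n X)) μ := by
  obtain ⟨D, hD⟩ := hη.bounded_above_of_compact_support hηc
  exact crb_integrable hμ (hη.comp (prH m n).continuous)
    (fun X hX => hη0 _ (crb_notMem_ball hX)) (D := D)
    (ae_of_all _ fun X _ => by rw [← Real.norm_eq_abs]; exact hD _)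

/-- removing the restriction to `Sg`. -/
theorem integral_cf {μ : Measure (E (m + n))} {f : E m → E n} (hf : Continuous f) {x : E m}
    {r h : ℝ} (k₀ : ℝ) (hz : ∀ᵐ X ∂μ, X ∈ ovr m n x r → ‖zet f X‖ ≤ h) {ψ : E m → E n}
    (hψ0 : ∀ y, y ∉ Metric.ball x r → ψ y = 0) :
    ∫ X, ⟪cf f k₀ X, ψ (prH m n X)⟫ ∂(μ.restrict (Sg f x r h))
      = k₀ * ∫ X, ⟪zet f X, (vd f (prH m n X))⁻¹ • ψ (prH m n X)⟫ ∂μ := by
  rw [← integral_indicator (measurableSet_Sg hf x r h), ← integral_const_mul]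
  refine integral_congr_ae ?_
  filter_upwards [hz] with X hX
  have e : ⟪cf f k₀ X, ψ (prH m n X)⟫
      = k₀ * ⟪zet f X, (vd f (prH m n X))⁻¹ • ψ (prH m n X)⟫ := by
    unfold cf
    rw [real_inner_smul_left, real_inner_smul_right]
    ring
  by_cases hS : X ∈ Sg f x r h
  · rw [Set.indicator_of_mem hS, e]
  · rw [Set.indicator_of_notMem hS]
    have hXo : X ∉ ovr m n x r := fun hXo => hS ⟨hXo, hX hXo⟩
    rw [hψ0 _ (crb_notMem_ball hXo), smul_zero, inner_zero_right, mul_zero]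

/-! ### leaf L-Fit-Corr-weak -/

theorem crw_vd_ne (f : E m → E n) (y : E m) : vd f y ≠ 0 := by
  have := one_le_vd f y
  linarith

theorem crw_contDiff_inv_vd {f : E m → E n} {k : ℕ} (hf : ContDiff ℝ (k + 1 : ℕ) f) :
    ContDiff ℝ k (fun y => (vd f y)⁻¹) :=
  (contDiff_vd hf).inv (crw_vd_ne f)

theorem crw_hasCompactSupport {F : Type*} [Zero F] {ζ : E m → F} {x : E m} {r : ℝ}
    (h : tsupport ζ ⊆ Metric.ball x r) : HasCompactSupport ζ :=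
  Metric.isCompact_of_isClosed_isBounded (isClosed_tsupport _) (Metric.isBounded_ball.subset h)

/-- the mollified first moment is smooth with compact support -/
theorem crw_uu (φ : ContDiffBump (0 : E m)) {μ : Measure (E (m + n))} {f : E m → E n}
    (hf : ContDiff ℝ 2 f) {x : E m} {r h k₀ B : ℝ} (hμ : μ (ovr m n x r) ≤ ENNReal.ofReal B) :
    ContDiff ℝ ∞ (uu φ μ f x r h k₀) ∧ HasCompactSupport (uu φ μ f x r h k₀) := by
  have : IsFiniteMeasure (μ.restrict (Sg f x r h)) :=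
    ⟨by rw [Measure.restrict_apply_univ]; exact crb_Sg_lt_top f h hμ⟩
  refine ⟨contDiff_mol φ _ (prH m n).continuous.measurable (integrable_cf hf hμ), ?_⟩
  have h1 : tsupport (uu φ μ f x r h k₀) ⊆ Metric.closedBall x (r + φ.rOut) := by
    refine tsupport_mol_subset_ae φ _ ?_
    filter_upwards [ae_restrict_mem (measurableSet_Sg hf.continuous x r h)] with X hX hX'
    exfalso
    apply hX'
    have : ‖prH m n X - x‖ < r := hX.1
    rw [Metric.mem_closedBall, dist_eq_norm]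
    exact this.le
  exact (isCompact_closedBall _ _).of_isClosed_subset (isClosed_tsupport _) h1

theorem crw_assembly {I0 I1 IX J1 J2 JL JR JJ Je He k₀ Qr b1 b2 b3 b4 : ℝ} (hk : 0 ≤ k₀)
    (e0 : I0 = I1 + IX) (e2 : |I1 - J1| ≤ b1) (e3 : J1 = k₀ * J2) (e4 : J2 = JL - JR)
    (e5 : |JJ| ≤ b2) (e6 : JJ = JL + Je) (e7 : |JR| ≤ b3) (e8 : |Je - Qr * He| ≤ b4)
    (e9 : IX = k₀ * (Qr * He)) : |I0| ≤ b1 + k₀ * (b2 + b3 + b4) := by
  have e : I0 = (I1 - J1) + (k₀ * JJ - k₀ * JR - k₀ * (Je - Qr * He)) := by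
    rw [e0, e9, e3, e4, e6]; ring
  have h1 : |k₀ * JJ - k₀ * JR - k₀ * (Je - Qr * He)| ≤ k₀ * (b2 + b3 + b4) := by
    have a1 : |k₀ * JJ| ≤ k₀ * b2 := by
      rw [abs_mul, abs_of_nonneg hk]; exact mul_le_mul_of_nonneg_left e5 hk
    have a2 : |k₀ * JR| ≤ k₀ * b3 := by
      rw [abs_mul, abs_of_nonneg hk]; exact mul_le_mul_of_nonneg_left e7 hk
    have a3 : |k₀ * (Je - Qr * He)| ≤ k₀ * b4 := by
      rw [abs_mul, abs_of_nonneg hk]; exact mul_le_mul_of_nonneg_left e8 hk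
    have t1 := abs_sub (k₀ * JJ - k₀ * JR) (k₀ * (Je - Qr * He))
    have t2 := abs_sub (k₀ * JJ) (k₀ * JR)
    linarith
  rw [e]
  exact (abs_add_le _ _).trans (add_le_add e2 h1)

theorem crw_numeric {c1 c2 c3 c4 T1 T2 T3 T4 : ℝ} (h1 : 0 ≤ c1) (h2 : 0 ≤ c2) (h3 : 0 ≤ c3)
    (h4 : 0 ≤ c4) (g1 : 0 ≤ T1) (g2 : 0 ≤ T2) (g3 : 0 ≤ T3) (g4 : 0 ≤ T4) :
    c1 * T1 + c2 * T2 + c3 * T3 + c4 * T4 ≤ (c1 + c2 + c3 + c4) * (T2 + (T3 + T4) + T1) := by
  have := mul_nonneg h1 g2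
  have := mul_nonneg h1 g3
  have := mul_nonneg h1 g4
  have := mul_nonneg h2 g1
  have := mul_nonneg h2 g3
  have := mul_nonneg h2 g4
  have := mul_nonneg h3 g1
  have := mul_nonneg h3 g2
  have := mul_nonneg h3 g4
  have := mul_nonneg h4 g1
  have := mul_nonneg h4 g2
  have := mul_nonneg h4 g3
  nlinarith

/-- the hypothesis of PDE-2 for the mollified first moment. -/
theorem weak_hyp (m n s Q : ℕ) (hQ : 1 ≤ Q) (hs : m + 7 ≤ s) (R₀ : ℝ) (h0 : 0 < R₀) :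
    ∃ σ₀ C : ℝ, 0 < σ₀ ∧ 0 ≤ C ∧
    ∀ (μ : Measure (E (m + n))) (f Ξ : E m → E n) (x : E m) (ℓ h M bJ σ ξ : ℝ),
      0 < ℓ → 0 ≤ h → 0 ≤ M → 0 ≤ bJ → 0 ≤ σ → 0 ≤ ξ →
      VIn s f → sAl (s - 1) ℓ f ≤ ENNReal.ofReal σ₀ →
      VIn (s - 2) Ξ → (∀ y ∈ Metric.ball x (R₀ * ℓ), mssOp f y = Ξ y) →
      ENNReal.ofReal ℓ * vAl (s - 2) ℓ Ξ ≤ ENNReal.ofReal ξ →
      μ (ovr m n x (R₀ * ℓ)) ≤ ENNReal.ofReal (M * ℓ ^ m) →
      (∀ᵐ X ∂μ, X ∈ ovr m n x (R₀ * ℓ) → ‖zet f X‖ ≤ h) →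
      JacB μ f x (R₀ * ℓ) ℓ bJ → MassB μ f Q x (R₀ * ℓ) ℓ σ →
      ∀ φ : ContDiffBump (0 : E m),
        WeakV (m + 4) (Metric.ball x (R₀ * ℓ)) ℓ
          (fun y => (pairCoef f f).op (uu φ μ f x (R₀ * ℓ) h (Q * cH m)⁻¹) y - (- Ξ y))
          ((Q * cH m)⁻¹ * (C * (bJ + (M * h * ℓ ^ m / ℓ ^ 2 + σ * ℓ ^ m / ℓ) * ξ
            + φ.rOut * (M * h * ℓ ^ m) / ℓ ^ 3))) := by
  obtain ⟨σ1, C1, hσ1, hC1, Hpc⟩ := pairCoef_small m n (m + 3) (by omega)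
  obtain ⟨Ct, hCt, Htest⟩ := exists_vAl_test_le m n 3 R₀
  obtain ⟨Cv, hCv, Hvd⟩ := exists_vd_bounds m n 2
  obtain ⟨σ2, Cr, hσ2, hCr, HrW⟩ := rW_bound m n (m + 1) le_rfl
  have hπ : 0 < 2 * Real.pi := by positivity
  obtain ⟨σ3, hσ3def⟩ : ∃ σ3 : ℝ, σ3 = ((2 * Real.pi) ^ 2)⁻¹ := ⟨_, rfl⟩
  have hσ3 : 0 < σ3 := by rw [hσ3def]; positivity
  obtain ⟨σ₀, hσ₀def⟩ : ∃ σ₀ : ℝ, σ₀ = min σ1 (min σ2 σ3) := ⟨_, rfl⟩
  have hσ₀ : 0 < σ₀ := by rw [hσ₀def]; exact lt_min hσ1 (lt_min hσ2 hσ3)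
  have hσ01 : σ₀ ≤ σ1 := by rw [hσ₀def]; exact min_le_left _ _
  have hσ02 : σ₀ ≤ σ2 := by rw [hσ₀def]; exact (min_le_right _ _).trans (min_le_left _ _)
  have hσ03 : σ₀ ≤ σ3 := by rw [hσ₀def]; exact (min_le_right _ _).trans (min_le_right _ _)
  obtain ⟨S₀, hS₀def⟩ : ∃ S₀ : ℝ, S₀ = C1 * (σ₀ + σ₀) ^ 2 := ⟨_, rfl⟩
  have hS₀ : 0 ≤ S₀ := by rw [hS₀def]; positivity
  obtain ⟨Cl, hCldef⟩ : ∃ Cl : ℝ, Cl = (2 * Real.pi) ^ 3 * m * ((m + S₀) * Ct) := ⟨_, rfl⟩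
  have hCl : 0 ≤ Cl := by rw [hCldef]; positivity
  have hCv0 : 0 ≤ Cv := by linarith
  refine ⟨σ₀, Cl + 4 * Cv + Cr + (2 * Real.pi + 1) * (4 * Cv), hσ₀, by positivity, ?_⟩
  intro μ f Ξ x ℓ h M bJ σ ξ hℓ hh hM hbJ hσ hξ hf hS hΞ hfΞ hξb hμ hz hJ hMass φ ζ A hζ
  -- notation
  obtain ⟨k₀, hk₀def⟩ : ∃ k₀ : ℝ, k₀ = ((Q : ℝ) * cH m)⁻¹ := ⟨_, rfl⟩
  have hQ0 : (0 : ℝ) < Q := by exact_mod_cast hQ
  have hcH := cH_pos m
  have hk₀ : 0 < k₀ := by rw [hk₀def]; positivity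
  rw [← hk₀def]
  have hA : 0 ≤ A := hζ.nonneg
  have hB : 0 ≤ M * ℓ ^ m := by positivity
  set r := R₀ * ℓ with hr
  set c := pairCoef f f with hc
  set u := uu φ μ f x r h k₀ with hu
  -- regularity of `f`
  have hfs : ContDiff ℝ s f := hf.contDiff
  have hf4 : ContDiff ℝ 4 f := hfs.of_le (by exact_mod_cast (by omega : 4 ≤ s))
  have hf3 : ContDiff ℝ 3 f := hf4.of_le (by norm_num)
  have hf2 : ContDiff ℝ 2 f := hf4.of_le (by norm_num)
  have hSle : ∀ k : ℕ, k ≤ s - 1 → sAl k ℓ f ≤ ENNReal.ofReal σ₀ := fun k hk =>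
    (sAl_mono hk hℓ.le f).trans hS
  -- the coefficients
  obtain ⟨hreg, hsize⟩ := Hpc f f ℓ hℓ (hf.mono (by omega)) (hf.mono (by omega))
    ((hSle (m + 3 + 1) (by omega)).trans (ENNReal.ofReal_le_ofReal hσ01))
    ((hSle (m + 3 + 1) (by omega)).trans (ENNReal.ofReal_le_ofReal hσ01))
  have hreg3 : c.Reg 3 := hreg.mono (by omega)
  have hreg2 : c.Reg 2 := hreg.mono (by omega)
  have hsize3 : c.sizel 3 ℓ ≤ ENNReal.ofReal S₀ := by
    refine (c.sizel_mono (by omega : 3 ≤ m + 3) hℓ.le).trans (hsize.trans ?_)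
    rw [hS₀def, ENNReal.ofReal_mul hC1, ENNReal.ofReal_pow (by positivity),
      ENNReal.ofReal_add hσ₀.le hσ₀.le]
    gcongr <;> exact hSle _ (by omega)
  -- the test
  have hζs := hζ.smooth
  have hζ2 : ContDiff ℝ 2 ζ := contDiff_infty.1 hζs 2
  have hζ1 : ContDiff ℝ 1 ζ := hζs.of_le (by exact_mod_cast le_top)
  have hζc : HasCompactSupport ζ := crw_hasCompactSupport hζ.supp
  have hζ0 : ∀ y, y ∉ Metric.ball x r → y ∉ tsupport ζ := fun y hy h' => hy (hζ.supp h')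
  obtain ⟨hζV, hζv⟩ := Htest x ℓ hℓ ζ A (hζ.mono (by omega) le_rfl)
  obtain ⟨K, hKdef⟩ : ∃ K : ℝ, K = (m + S₀) * (Ct * A) := ⟨_, rfl⟩
  have hK0 : 0 ≤ K := by rw [hKdef]; positivity
  have hK : (m + c.sizel 3 ℓ) * vAl 3 ℓ ζ ≤ ENNReal.ofReal K := by
    rw [hKdef, ENNReal.ofReal_mul (by positivity), ENNReal.ofReal_add (by positivity) hS₀,
      ENNReal.ofReal_natCast]
    gcongr
  have hlip := c.adj_lip hℓ hreg3 hζV hK0 hK
  obtain ⟨hadjV, -⟩ := c.adj_bound 1 hℓ hreg3 hζV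
  -- the mollified moment
  obtain ⟨hus, huc⟩ := crw_uu φ (h := h) (k₀ := k₀) hf2 hμ
  have hu2 : ContDiff ℝ 2 u := contDiff_infty.1 hus 2
  have hopc : Continuous (c.op u) := (c.VIn_op 0 (hreg.mono (by omega))
    (VIn.of_smooth hus huc 2)).continuous
  have : IsFiniteMeasure (μ.restrict (Sg f x r h)) :=
    ⟨by rw [Measure.restrict_apply_univ]; exact crb_Sg_lt_top f h hμ⟩
  -- (0) splitting
  have i1 : Integrable (fun y => ⟪c.op u y, ζ y⟫) := by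
    have := adj_integrable_inner hζ2.continuous hopc hζc
    simpa only [real_inner_comm] using this
  have i2 : Integrable (fun y => ⟪Ξ y, ζ y⟫) := by
    have := adj_integrable_inner hζ2.continuous hΞ.continuous hζc
    simpa only [real_inner_comm] using this
  have e0 : ∫ y, ⟪c.op u y - (- Ξ y), ζ y⟫ = (∫ y, ⟪c.op u y, ζ y⟫) + ∫ y, ⟪Ξ y, ζ y⟫ := by
    rw [← integral_add i1 i2]
    refine integral_congr_ae (ae_of_all _ fun y => ?_)
    simp only [sub_neg_eq_add, inner_add_left]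
  -- (1) adjoint
  have e1 : ∫ y, ⟪c.op u y, ζ y⟫ = ∫ y, ⟪u y, c.adj ζ y⟫ :=
    c.integral_op_inner hreg2 hu2 huc hζ2
  -- (2) mollification error
  obtain ⟨L, hLdef⟩ : ∃ L : ℝ, L = (2 * Real.pi) ^ 3 * m * K / ℓ ^ 3 := ⟨_, rfl⟩
  have hL0 : 0 ≤ L := by rw [hLdef]; positivity
  have hLip : ∀ y y', ‖c.adj ζ y - c.adj ζ y'‖ ≤ L * ‖y - y'‖ := fun y y' => by
    have := hlip y y'
    rw [hLdef, div_mul_eq_mul_div, le_div_iff₀ (by positivity)]
    linarith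
  have e2 := abs_integral_mol_sub_le φ (μ.restrict (Sg f x r h))
    (prH m n).continuous.measurable (integrable_cf (k₀ := k₀) hf2 hμ) hL0 hLip
    hadjV.hasCompactSupport
  have e2' : φ.rOut * L * ∫ q, ‖cf f k₀ q‖ ∂(μ.restrict (Sg f x r h))
      ≤ φ.rOut * L * (k₀ * h * (M * ℓ ^ m)) :=
    mul_le_mul_of_nonneg_left (integral_norm_cf_le hf2 hh hk₀.le hB hμ)
      (mul_nonneg φ.rOut_pos.le hL0)
  -- (3) removing the restriction; the adjoint identity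
  set w : E m → E n := fun y => (vd f y)⁻¹ • ζ y with hw
  set ψ₂ : E m → E n := fun y => (vd f y)⁻¹ • rW f ζ y with hψ₂
  have hiv2 : ContDiff ℝ 2 (fun y => (vd f y)⁻¹) :=
    crw_contDiff_inv_vd (k := 2) (by exact_mod_cast hf3)
  have hw2 : ContDiff ℝ 2 w := hiv2.smul hζ2
  have hw1 : ContDiff ℝ 1 w := hw2.of_le (by norm_num)
  have hws : tsupport w ⊆ tsupport ζ := tsupport_smul_subset_right _ _
  have hwO : tsupport w ⊆ Metric.ball x r := hws.trans hζ.supp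
  have e3 := integral_cf hf2.continuous k₀ hz (ψ := c.adj ζ)
    (fun y hy => c.adj_eq_zero_of_notMem (hζ0 y hy))
  have hLLc : Continuous (LL f w) := continuous_LL hf3 hw2
  have hLL0 : ∀ y, y ∉ tsupport ζ → LL f w y = 0 := fun y hy =>
    LL_eq_zero_of_notMem f fun h' => hy (hws h')
  have hψ₂c : Continuous ψ₂ := hiv2.continuous.smul (continuous_rW hf3 hζ1)
  have hψ₂0 : ∀ y, y ∉ tsupport ζ → ψ₂ y = 0 := fun y hy => by
    rw [hψ₂]; simp only; rw [rW_eq_zero_of_notMem f hy, smul_zero]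
  have j1 : Integrable (fun X => ⟪zet f X, LL f w (prH m n X)⟫) μ :=
    integrable_zet_inner hf2.continuous hμ hz hLLc (HasCompactSupport.intro hζc hLL0)
      (fun y hy => hLL0 y (hζ0 y hy))
  have j2 : Integrable (fun X => ⟪zet f X, ψ₂ (prH m n X)⟫) μ :=
    integrable_zet_inner hf2.continuous hμ hz hψ₂c (HasCompactSupport.intro hζc hψ₂0)
      (fun y hy => hψ₂0 y (hζ0 y hy))
  have e4 : ∫ X, ⟪zet f X, (vd f (prH m n X))⁻¹ • c.adj ζ (prH m n X)⟫ ∂μ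
      = (∫ X, ⟪zet f X, LL f w (prH m n X)⟫ ∂μ) - ∫ X, ⟪zet f X, ψ₂ (prH m n X)⟫ ∂μ := by
    rw [← integral_sub j1 j2]
    refine integral_congr_ae (ae_of_all _ fun X => ?_)
    simp only
    rw [adj_eq' hf4 hreg2 hζ2, inner_sub_right]
  -- (4) the weak Jacobi estimate
  have hslope := slope_bounds (K := 2) hℓ (hf.mono (by omega))
    ((hSle 2 (by omega)).trans (ENNReal.ofReal_le_ofReal (hσ03.trans hσ3def.le)))
  have hvd := Hvd f ℓ hℓ (by exact_mod_cast hf3) hslope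
  obtain ⟨Aw, hAwdef⟩ : ∃ Aw : ℝ, Aw = 2 ^ 2 * Cv * A := ⟨_, rfl⟩
  have hAw0 : 0 ≤ Aw := by rw [hAwdef]; positivity
  have hwb : ∀ j : ℕ, j ≤ 2 → ∀ y, ℓ ^ j * ‖iteratedFDeriv ℝ j w y‖ ≤ Aw := by
    rw [hAwdef]
    exact smul_test_bound (K := 2) hℓ (by exact_mod_cast hiv2) (by exact_mod_cast hζ2)
      (fun j hj y => (hvd j hj y).2) (fun j hj y => hζ.bound j (by omega) y)
  have e5 := hJ w Aw hw2 hwO hwb
  set η : E m → ℝ := fun y => ⟪mssOp f y, w y⟫ with hη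
  have hms1 : ContDiff ℝ 1 (mssOp f) := contDiff_mssOp (k := 1) (by exact_mod_cast hf3)
  have hη1 : ContDiff ℝ 1 η := hms1.inner ℝ hw1
  have hηs : tsupport η ⊆ tsupport w := by
    refine closure_mono fun y hy => ?_
    rw [Function.mem_support] at hy ⊢
    intro h'
    apply hy
    rw [hη]; simp only; rw [h', inner_zero_right]
  have hηO : tsupport η ⊆ Metric.ball x r := hηs.trans hwO
  have j3 : Integrable (fun X => η (prH m n X)) μ :=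
    integrable_comp_prH hμ hη1.continuous (crw_hasCompactSupport hηO)
      (fun y hy => image_eq_zero_of_notMem_tsupport fun h' => hy (hηO h'))
  have e6 : ∫ X, (⟪zet f X, LL f w (prH m n X)⟫ + ⟪mssOp f (prH m n X), w (prH m n X)⟫) ∂μ
      = (∫ X, ⟪zet f X, LL f w (prH m n X)⟫ ∂μ) + ∫ X, η (prH m n X) ∂μ :=
    integral_add j1 j3
  -- (5) the remainder
  have hζb0 : ∀ y, ‖ζ y‖ ≤ A := fun y => by
    have := hζ.bound 0 (Nat.zero_le _) y
    rwa [pow_zero, one_mul, norm_iteratedFDeriv_zero] at this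
  have hζb1 : ∀ y, ℓ * ‖fderiv ℝ ζ y‖ ≤ A := fun y => by
    have := hζ.bound 1 (by omega) y
    rwa [pow_one, norm_iteratedFDeriv_one] at this
  have hrW := HrW f Ξ (Metric.ball x r) ℓ ξ hℓ hξ Metric.isOpen_ball (hf.mono (by omega))
    ((hSle (m + 1 + 1) (by omega)).trans (ENNReal.ofReal_le_ofReal hσ02)) (hΞ.mono (by omega)) hfΞ
    ((mul_le_mul' le_rfl (vAl_mono (by omega) hℓ.le Ξ)).trans hξb) ζ A hζ1 hζb0 hζb1
  have hψ₂b : ∀ y, ‖ψ₂ y‖ ≤ Cr * ξ * A / ℓ ^ 2 := fun y => by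
    by_cases hy : y ∈ Metric.ball x r
    · obtain ⟨p1, p2⟩ := crb_inv_vd f y
      rw [hψ₂]; simp only
      rw [norm_smul, Real.norm_eq_abs, abs_of_pos p1, le_div_iff₀ (by positivity)]
      have := hrW y hy
      calc (vd f y)⁻¹ * ‖rW f ζ y‖ * ℓ ^ 2 ≤ 1 * ‖rW f ζ y‖ * ℓ ^ 2 := by gcongr
        _ = ℓ ^ 2 * ‖rW f ζ y‖ := by ring
        _ ≤ _ := this
    · rw [hψ₂0 y (hζ0 y hy), norm_zero]; positivity
  have e7 := abs_integral_zet_inner_le hf2.continuous hh hB hμ hz hψ₂c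
    (fun y hy => hψ₂0 y (hζ0 y hy)) hψ₂b
  -- (6) the mass comparison
  have hwb0 : ∀ y, ‖w y‖ ≤ Aw := fun y => by
    have := hwb 0 (Nat.zero_le _) y
    rwa [pow_zero, one_mul, norm_iteratedFDeriv_zero] at this
  have hwb1 : ∀ y, ℓ * ‖fderiv ℝ w y‖ ≤ Aw := fun y => by
    have := hwb 1 (by omega) y
    rwa [pow_one, norm_iteratedFDeriv_one] at this
  obtain ⟨hη0b, hη1b⟩ := eta_bound (r := 1) le_rfl hℓ hξ Metric.isOpen_ball (hΞ.mono (by omega))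
    hfΞ ((mul_le_mul' le_rfl (vAl_mono (by omega) hℓ.le Ξ)).trans hξb) hw1 hwO hwb0 hwb1
  obtain ⟨Ae, hAedef⟩ : ∃ Ae : ℝ, Ae = (2 * Real.pi + 1) * ξ * Aw / ℓ := ⟨_, rfl⟩
  have e8 := hMass η Ae hη1 hηO (fun y => by
      rw [hAedef, le_div_iff₀ hℓ]
      have := hη0b y
      have h2 : ξ * Aw ≤ (2 * Real.pi + 1) * ξ * Aw := by
        have h3 : 0 ≤ ξ * Aw := by positivity
        calc ξ * Aw = 1 * (ξ * Aw) := (one_mul _).symm
          _ ≤ (2 * Real.pi + 1) * (ξ * Aw) := mul_le_mul_of_nonneg_right (by linarith) h3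
          _ = _ := by ring
      calc |η y| * ℓ = ℓ * |η y| := by ring
        _ ≤ _ := this.trans h2) (fun y => by
      rw [hAedef, le_div_iff₀ hℓ]
      have := hη1b y
      calc ℓ * ‖fderiv ℝ η y‖ * ℓ = ℓ * (ℓ * ‖fderiv ℝ η y‖) := by ring
        _ ≤ _ := this)
  -- (7) the Hausdorff integral
  have e9 : ∫ y, ⟪Ξ y, ζ y⟫ = k₀ * (Q * ∫ y, η y * vd f y ∂(μH[(m : ℝ)] : Measure (E m))) := by
    rw [hausdorff_eq_cH, integral_smul_measure, ENNReal.toReal_ofReal hcH.le, smul_eq_mul]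
    have : ∫ y, η y * vd f y = ∫ y, ⟪Ξ y, ζ y⟫ := by
      refine integral_congr_ae (ae_of_all _ fun y => ?_)
      simp only [hη, hw]
      rw [real_inner_smul_right, mul_assoc, mul_comm _ (vd f y), ← mul_assoc,
        inv_mul_cancel₀ (crw_vd_ne f y), one_mul]
      by_cases hy : y ∈ Metric.ball x r
      · rw [hfΞ y hy]
      · rw [image_eq_zero_of_notMem_tsupport (hζ0 y hy), inner_zero_right, inner_zero_right]
    rw [this, hk₀def]
    field_simp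
  -- assembly
  have hfin := crw_assembly hk₀.le (e0.trans (by rw [e1]; rfl)) (e2.trans e2') e3 e4 e5 e6 e7 e8 e9
  refine hfin.trans (le_of_eq_of_le ?_ (mul_le_mul_of_nonneg_left (mul_le_mul_of_nonneg_right
    (crw_numeric hCl (by positivity : 0 ≤ 4 * Cv) hCr
      (by positivity : 0 ≤ (2 * Real.pi + 1) * (4 * Cv))
      (by have := φ.rOut_pos; positivity : 0 ≤ φ.rOut * (M * h * ℓ ^ m) / ℓ ^ 3) hbJ
      (by positivity : 0 ≤ M * h * ℓ ^ m / ℓ ^ 2 * ξ)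
      (by positivity : 0 ≤ σ * ℓ ^ m / ℓ * ξ)) hA) hk₀.le) |>.trans (le_of_eq ?_))
  · rw [hLdef, hKdef, hAedef, hAwdef, hCldef]
    field_simp
    ring
  · ring

/-! ### leaf L-Fit-Corr-moment -/

/-- real form of the sup bounds. -/
theorem mom_sup {j : ℕ} {w : E m → E n} (h : VIn j w) {ℓ V : ℝ} (hℓ : 0 < ℓ) (hV : 0 ≤ V)
    (hb : vAl j ℓ w ≤ ENNReal.ofReal V) (y : E m) :
    ℓ ^ j * ‖iteratedFDeriv ℝ j w y‖ ≤ (2 * Real.pi) ^ j * V := by
  have h1 := (norm_iteratedFDeriv_le_vAl h hℓ y).trans (mul_le_mul_right hb _)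
  rw [← ENNReal.ofReal_mul (by positivity)] at h1
  exact (ENNReal.ofReal_le_ofReal_iff (by positivity)).1 h1

/-- a function with bounded derivative is Lipschitz. -/
theorem mom_lip {ψ : E m → E n} (hψ : Differentiable ℝ ψ) {L : ℝ} (hL : ∀ y, ‖fderiv ℝ ψ y‖ ≤ L)
    (y y' : E m) : ‖ψ y - ψ y'‖ ≤ L * ‖y - y'‖ :=
  Convex.norm_image_sub_le_of_norm_fderiv_le (fun z _ => hψ z) (fun z _ => hL z) convex_univ
    (Set.mem_univ _) (Set.mem_univ _)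

/-- the scalar test `⟪v, η⟫`. -/
theorem mom_inner_bound {v η : E m → E n} (hv : Differentiable ℝ v) (hη : Differentiable ℝ η)
    {ℓ V V₁ A : ℝ} (hℓ : 0 < ℓ) (hv0 : ∀ y, ‖v y‖ ≤ V) (hv1 : ∀ y, ℓ * ‖fderiv ℝ v y‖ ≤ V₁)
    (hη0 : ∀ y, ‖η y‖ ≤ A) (hη1 : ∀ y, ℓ * ‖fderiv ℝ η y‖ ≤ A) :
    (∀ y, |⟪v y, η y⟫| ≤ V * A) ∧
      ∀ y, ℓ * ‖fderiv ℝ (fun y => ⟪v y, η y⟫) y‖ ≤ (V + V₁) * A := by
  have hV : 0 ≤ V := (norm_nonneg _).trans (hv0 0)
  have hA : 0 ≤ A := (norm_nonneg _).trans (hη0 0)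
  refine ⟨fun y => (abs_real_inner_le_norm _ _).trans
    (mul_le_mul (hv0 y) (hη0 y) (norm_nonneg _) hV), fun y => ?_⟩
  have hb : ‖fderiv ℝ (fun y => ⟪v y, η y⟫) y‖
      ≤ ‖v y‖ * ‖fderiv ℝ η y‖ + ‖fderiv ℝ v y‖ * ‖η y‖ := by
    refine ContinuousLinearMap.opNorm_le_bound _ (by positivity) fun d => ?_
    rw [fderiv_inner_apply ℝ (hv y) (hη y), Real.norm_eq_abs]
    refine (abs_add_le _ _).trans ?_
    rw [add_mul]
    refine add_le_add ?_ ?_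
    · refine (abs_real_inner_le_norm _ _).trans ?_
      rw [mul_assoc]
      exact mul_le_mul_of_nonneg_left (ContinuousLinearMap.le_opNorm _ _) (norm_nonneg _)
    · refine (abs_real_inner_le_norm _ _).trans ?_
      calc ‖fderiv ℝ v y d‖ * ‖η y‖ ≤ (‖fderiv ℝ v y‖ * ‖d‖) * ‖η y‖ :=
            mul_le_mul_of_nonneg_right (ContinuousLinearMap.le_opNorm _ _) (norm_nonneg _)
        _ = ‖fderiv ℝ v y‖ * ‖η y‖ * ‖d‖ := by ring
  calc ℓ * ‖fderiv ℝ (fun y => ⟪v y, η y⟫) y‖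
      ≤ ℓ * (‖v y‖ * ‖fderiv ℝ η y‖ + ‖fderiv ℝ v y‖ * ‖η y‖) :=
        mul_le_mul_of_nonneg_left hb hℓ.le
    _ = ‖v y‖ * (ℓ * ‖fderiv ℝ η y‖) + (ℓ * ‖fderiv ℝ v y‖) * ‖η y‖ := by ring
    _ ≤ V * A + V₁ * A := by
        refine add_le_add (mul_le_mul (hv0 y) (hη1 y) (by positivity) hV)
          (mul_le_mul (hv1 y) (hη0 y) (norm_nonneg _) ?_)
        exact le_trans (by positivity) (hv1 y)
    _ = (V + V₁) * A := by ring

/-- arithmetic of `moment`. -/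
theorem mom_arith {Iz Iv Jc Ju Jv Jd GH k₀ qc δ Cr A ℓ p b₁ sL V P : ℝ} (hqc : 0 < qc)
    (hk : qc * k₀ = 1) (hCr : 1 ≤ Cr) (hA : 0 ≤ A) (hP : 0 ≤ P) (hb₁ : 0 ≤ b₁) (hδp : 0 ≤ δ * p / ℓ)
    (hsV : 0 ≤ sL * V)
    (e1 : Jc = k₀ * Iz) (e2 : Jd = Jv - Ju) (e3 : GH = qc * Jv)
    (b1 : |Ju - Jc| ≤ δ * (Cr * A / ℓ) * (k₀ * p)) (b2 : |Jd| ≤ b₁ * (Cr * A))
    (b3 : |Iv - GH| ≤ sL * (P * V * A)) :
    |Iz - Iv| ≤ (Cr + P) * (qc * b₁ + δ * p / ℓ + sL * V) * A := by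
  have hIz : Iz = qc * Jc := by rw [e1, ← mul_assoc, hk, one_mul]
  have e : Iz - Iv = - (qc * (Ju - Jc)) - qc * Jd - (Iv - GH) := by
    rw [hIz, e2, e3]; ring
  rw [e]
  have t1 : |qc * (Ju - Jc)| ≤ Cr * (δ * p / ℓ) * A := by
    rw [abs_mul, abs_of_pos hqc]
    calc qc * |Ju - Jc| ≤ qc * (δ * (Cr * A / ℓ) * (k₀ * p)) :=
          mul_le_mul_of_nonneg_left b1 hqc.le
      _ = (qc * k₀) * (Cr * (δ * p / ℓ) * A) := by ring
      _ = Cr * (δ * p / ℓ) * A := by rw [hk, one_mul]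
  have t2 : |qc * Jd| ≤ Cr * (qc * b₁) * A := by
    rw [abs_mul, abs_of_pos hqc]
    calc qc * |Jd| ≤ qc * (b₁ * (Cr * A)) := mul_le_mul_of_nonneg_left b2 hqc.le
      _ = Cr * (qc * b₁) * A := by ring
  have t3 : |-(qc * (Ju - Jc)) - qc * Jd - (Iv - GH)|
      ≤ |qc * (Ju - Jc)| + |qc * Jd| + |Iv - GH| := by
    refine (abs_sub _ _).trans (add_le_add ((abs_sub _ _).trans ?_) le_rfl)
    rw [abs_neg]
  refine t3.trans ?_
  have hq : 0 ≤ qc * b₁ := by positivity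
  have hCr0 : 0 ≤ Cr := by linarith
  have e4 : (Cr + P) * (qc * b₁ + δ * p / ℓ + sL * V) * A
      = Cr * (δ * p / ℓ) * A + Cr * (qc * b₁) * A + sL * (P * V * A)
        + (Cr * (sL * V) * A + P * (qc * b₁) * A + P * (δ * p / ℓ) * A) := by ring
  rw [e4]
  have a1 : 0 ≤ Cr * (sL * V) * A := by positivity
  have a2 : 0 ≤ P * (qc * b₁) * A := by positivity
  have a3 : 0 ≤ P * (δ * p / ℓ) * A := by positivity
  linarith

/-- the first moment of the corrected height. -/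
theorem moment (m n s Q q : ℕ) (hQ : 1 ≤ Q) (hq : 1 ≤ q) (hs : q + 1 ≤ s) (R₁ R₀ : ℝ) (h1 : 0 < R₁)
    (h0 : R₁ ≤ R₀) :
    ∃ σ₀ C : ℝ, 0 < σ₀ ∧ 0 ≤ C ∧
    ∀ (μ : Measure (E (m + n))) (f v : E m → E n) (x : E m) (ℓ h M σ b₁ V : ℝ),
      0 < ℓ → 0 ≤ h → 0 ≤ M → 0 ≤ σ → 0 ≤ V →
      VIn s f → sAl (s - 1) ℓ f ≤ ENNReal.ofReal σ₀ →
      μ (ovr m n x (R₀ * ℓ)) ≤ ENNReal.ofReal (M * ℓ ^ m) →
      (∀ᵐ X ∂μ, X ∈ ovr m n x (R₀ * ℓ) → ‖zet f X‖ ≤ h) →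
      MassB μ f Q x (R₀ * ℓ) ℓ σ →
      VIn 1 v → vAl 1 ℓ v ≤ ENNReal.ofReal V →
      ∀ φ : ContDiffBump (0 : E m),
        WeakV q (Metric.ball x (R₁ * ℓ)) ℓ
          (fun y => v y - uu φ μ f x (R₀ * ℓ) h (Q * cH m)⁻¹ y) b₁ →
        ∀ (η : E m → E n) (A : ℝ), ContDiff ℝ q η → tsupport η ⊆ Metric.ball x (R₁ * ℓ) →
          (∀ j : ℕ, j ≤ q → ∀ y, ℓ ^ j * ‖iteratedFDeriv ℝ j η y‖ ≤ A) →
          |∫ X, ⟪zet f X - v (prH m n X), η (prH m n X)⟫ ∂μ|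
            ≤ C * (Q * cH m * b₁ + φ.rOut * (M * h * ℓ ^ m) / ℓ + σ * ℓ ^ m * V) * A := by
  obtain ⟨σr, Cr, hσr, hCr, Hr⟩ := rho_bounds m n q
  refine ⟨σr, Cr + (1 + 2 * Real.pi), hσr, by positivity, ?_⟩
  intro μ f v x ℓ h M σ b₁ V hℓ hh hM hσ hV hf hS hμ hz hMB hv hvV φ hwk η A hη hηs hηb
  have hQc : 0 < (Q : ℝ) * cH m := mul_pos (by exact_mod_cast hQ) (cH_pos m)
  set k₀ : ℝ := ((Q : ℝ) * cH m)⁻¹ with hk₀
  have hk : 0 < k₀ := inv_pos.2 hQc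
  have hkQ : (Q : ℝ) * cH m * k₀ = 1 := mul_inv_cancel₀ hQc.ne'
  have hq1 : (1 : WithTop ℕ∞) ≤ (q : WithTop ℕ∞) := by exact_mod_cast hq
  have hA : 0 ≤ A := le_trans (by positivity) (hηb 0 (Nat.zero_le _) x)
  obtain ⟨hvd, -, Hb⟩ := Hr f ℓ hℓ (hf.mono hs) ((sAl_mono (by omega) hℓ.le f).trans hS)
  have hfc : Continuous f := hf.continuous
  have hf2 : ContDiff ℝ 2 f := hf.contDiff.of_le (by exact_mod_cast (by omega : 2 ≤ s))
  have hvdpos : ∀ y, vd f y ≠ 0 := fun y => (lt_of_lt_of_le one_pos (one_le_vd f y)).ne'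
  -- the test `ψ = √g η`
  set ψ : E m → E n := fun y => vd f y • η y with hψdef
  have hψ : ContDiff ℝ q ψ := hvd.smul hη
  have hψb : ∀ j : ℕ, j ≤ q → ∀ y, ℓ ^ j * ‖iteratedFDeriv ℝ j ψ y‖ ≤ Cr * A :=
    fun j hj y => (Hb η A hη hηb j hj y).1
  have hψs : tsupport ψ ⊆ Metric.ball x (R₁ * ℓ) :=
    (tsupport_smul_subset_right _ _).trans hηs
  have hball : Metric.ball x (R₁ * ℓ) ⊆ Metric.ball x (R₀ * ℓ) :=
    Metric.ball_subset_ball (mul_le_mul_of_nonneg_right h0 hℓ.le)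
  have hcpt : ∀ {F : Type} [NormedAddCommGroup F] (g : E m → F),
      tsupport g ⊆ Metric.ball x (R₁ * ℓ) → HasCompactSupport g := fun g hg =>
    (isCompact_closedBall x (R₁ * ℓ)).of_isClosed_subset (isClosed_tsupport _)
      (hg.trans Metric.ball_subset_closedBall)
  have hψc : HasCompactSupport ψ := hcpt ψ hψs
  have hηc : HasCompactSupport η := hcpt η hηs
  have hzero : ∀ {F : Type} [NormedAddCommGroup F] (g : E m → F),
      tsupport g ⊆ Metric.ball x (R₁ * ℓ) → ∀ y, y ∉ Metric.ball x (R₀ * ℓ) → g y = 0 :=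
    fun g hg y hy => image_eq_zero_of_notMem_tsupport fun hy' => hy (hball (hg hy'))
  have hψd : Differentiable ℝ ψ := hψ.differentiable (by
    exact_mod_cast (Nat.one_le_iff_ne_zero.1 hq))
  have hηd : Differentiable ℝ η := hη.differentiable (by
    exact_mod_cast (Nat.one_le_iff_ne_zero.1 hq))
  have hψL : ∀ y, ‖fderiv ℝ ψ y‖ ≤ Cr * A / ℓ := fun y => by
    have := hψb 1 hq y
    rw [pow_one, norm_iteratedFDeriv_one] at this
    rw [le_div_iff₀ hℓ, mul_comm]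
    exact this
  -- the measure
  set S := Sg f x (R₀ * ℓ) h with hSdef
  have : IsFiniteMeasure (μ.restrict S) := ⟨by
    rw [Measure.restrict_apply_univ]
    exact ((measure_mono Set.inter_subset_left).trans hμ).trans_lt ENNReal.ofReal_lt_top⟩
  have hcf : Integrable (cf f k₀) (μ.restrict S) := integrable_cf hf2 hμ
  set u := uu φ μ f x (R₀ * ℓ) h k₀ with hu
  have huS : ContDiff ℝ ∞ u := contDiff_mol φ _ (prH m n).continuous.measurable hcf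
  -- the scalar test
  set G : E m → ℝ := fun y => ⟪v y, η y⟫ with hG
  have hvc : ContDiff ℝ 1 v := hv.contDiff
  have hGc : ContDiff ℝ 1 G := hvc.inner ℝ (hη.of_le hq1)
  have hGs : tsupport G ⊆ Metric.ball x (R₁ * ℓ) := by
    refine (closure_mono fun y hy => ?_).trans hηs
    intro h0'
    apply hy
    show ⟪v y, η y⟫ = 0
    rw [h0', inner_zero_right]
  have hv0 : ∀ y, ‖v y‖ ≤ V := fun y => by
    have := mom_sup (hv.mono (Nat.zero_le 1)) hℓ hV ((vAl_mono (Nat.zero_le 1) hℓ.le v).trans hvV) y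
    simpa using this
  have hv1 : ∀ y, ℓ * ‖fderiv ℝ v y‖ ≤ 2 * Real.pi * V := fun y => by
    have := mom_sup hv hℓ hV hvV y
    rwa [pow_one, pow_one, norm_iteratedFDeriv_one] at this
  have hη0 : ∀ y, ‖η y‖ ≤ A := fun y => by
    have := hηb 0 (Nat.zero_le _) y
    simpa using this
  have hη1 : ∀ y, ℓ * ‖fderiv ℝ η y‖ ≤ A := fun y => by
    have := hηb 1 hq y
    rwa [pow_one, norm_iteratedFDeriv_one] at this
  obtain ⟨hG0, hG1⟩ := mom_inner_bound hv.differentiable hηd hℓ hv0 hv1 hη0 hη1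
  have hVA : 0 ≤ V * A := by positivity
  have hpi : 0 ≤ 2 * Real.pi * V * A := by positivity
  have b3 := hMB G ((1 + 2 * Real.pi) * V * A) hGc (hGs.trans hball)
    (fun y => (hG0 y).trans (by nlinarith)) (fun y => (hG1 y).trans (le_of_eq (by ring)))
  -- the five integrals
  have e0 : ∫ X, ⟪zet f X - v (prH m n X), η (prH m n X)⟫ ∂μ
      = ∫ X, ⟪zet f X, η (prH m n X)⟫ ∂μ - ∫ X, G (prH m n X) ∂μ := by
    rw [← integral_sub (integrable_zet_inner hfc hμ hz hη.continuous hηc (hzero η hηs))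
      (integrable_comp_prH hμ hGc.continuous (hcpt G hGs) (hzero G hGs))]
    refine integral_congr_ae (Filter.Eventually.of_forall fun X => ?_)
    exact inner_sub_left _ _ _
  have e1 : ∫ X, ⟪cf f k₀ X, ψ (prH m n X)⟫ ∂(μ.restrict S)
      = k₀ * ∫ X, ⟪zet f X, η (prH m n X)⟫ ∂μ := by
    rw [integral_cf hfc k₀ hz (hzero ψ hψs)]
    congr 1
    refine integral_congr_ae (Filter.Eventually.of_forall fun X => ?_)
    show ⟪zet f X, (vd f (prH m n X))⁻¹ • (vd f (prH m n X) • η (prH m n X))⟫ = _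
    rw [smul_smul, inv_mul_cancel₀ (hvdpos _), one_smul]
  have iv : Integrable fun y => ⟪v y, ψ y⟫ :=
    (hv.continuous.inner hψ.continuous).integrable_of_hasCompactSupport
      (hψc.mono fun y hy h0' => hy (by show ⟪v y, ψ y⟫ = 0; rw [h0', inner_zero_right]))
  have iu : Integrable fun y => ⟪u y, ψ y⟫ :=
    (huS.continuous.inner hψ.continuous).integrable_of_hasCompactSupport
      (hψc.mono fun y hy h0' => hy (by show ⟪u y, ψ y⟫ = 0; rw [h0', inner_zero_right]))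
  have e2 : ∫ y, ⟪v y - u y, ψ y⟫ = (∫ y, ⟪v y, ψ y⟫) - ∫ y, ⟪u y, ψ y⟫ := by
    rw [← integral_sub iv iu]
    refine integral_congr_ae (Filter.Eventually.of_forall fun y => ?_)
    exact inner_sub_left _ _ _
  have e3 : (Q : ℝ) * ∫ y, G y * vd f y ∂(μH[(m : ℝ)] : Measure (E m))
      = (Q : ℝ) * cH m * ∫ y, ⟪v y, ψ y⟫ := by
    rw [hausdorff_eq_cH, integral_smul_measure, ENNReal.toReal_ofReal (cH_pos m).le, smul_eq_mul,
      mul_assoc]
    congr 2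
    refine integral_congr_ae (Filter.Eventually.of_forall fun y => ?_)
    show ⟪v y, η y⟫ * vd f y = ⟪v y, vd f y • η y⟫
    rw [real_inner_smul_right, mul_comm]
  have b1 : |(∫ y, ⟪u y, ψ y⟫) - ∫ X, ⟪cf f k₀ X, ψ (prH m n X)⟫ ∂(μ.restrict S)|
      ≤ φ.rOut * (Cr * A / ℓ) * (k₀ * (M * h * ℓ ^ m)) := by
    refine (abs_integral_mol_sub_le φ _ (prH m n).continuous.measurable hcf (by positivity)
      (mom_lip hψd hψL) hψc).trans ?_
    refine mul_le_mul_of_nonneg_left ?_ (by have := φ.rOut_pos; positivity)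
    refine (integral_norm_cf_le hf2 hh hk.le (by positivity) hμ).trans (le_of_eq (by ring))
  have b2 : |∫ y, ⟪v y - u y, ψ y⟫| ≤ b₁ * (Cr * A) :=
    hwk.of_contDiff Metric.isOpen_ball hℓ (hv.continuous.sub huS.continuous) hψ hψc hψs hψb
  rw [e0]
  have hfin := mom_arith (Iz := ∫ X, ⟪zet f X, η (prH m n X)⟫ ∂μ) (Iv := ∫ X, G (prH m n X) ∂μ)
    (δ := φ.rOut) (ℓ := ℓ) (p := M * h * ℓ ^ m) (sL := σ * ℓ ^ m) (V := V)
    (P := 1 + 2 * Real.pi) hQc hkQ hCr hA (by positivity) hwk.nonneg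
    (by have := φ.rOut_pos; positivity) (by positivity) e1 e2 e3 b1 b2
    (b3.trans (le_of_eq (by ring)))
  exact hfin

/-! ### the theorem -/

/-- arithmetic of the mollification radius. -/
theorem corr_arith_delta {ℓ p τ : ℝ} (hℓ : 0 < ℓ) (hp : 0 ≤ p) (hτ : 0 < τ) :
    τ * ℓ ^ 3 / (p + 1) * p / ℓ ≤ ℓ ^ 2 * τ := by
  have h1 : 0 < p + 1 := by linarith
  have e : τ * ℓ ^ 3 / (p + 1) * p / ℓ = ℓ ^ 2 * τ * (p / (p + 1)) := by
    field_simp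
  rw [e]
  have h2 : p / (p + 1) ≤ 1 := by rw [div_le_one h1]; linarith
  have h3 : 0 ≤ ℓ ^ 2 * τ := by positivity
  nlinarith

/-- arithmetic of the weak bound. -/
theorem corr_arith_b {ℓ L M h bJ σ ξ τ k₀ Cw : ℝ} (hℓ : 0 < ℓ) (hL : 0 < L) (hM : 0 ≤ M) (hh : 0 ≤ h)
    (hτ : 0 < τ) (hk : 0 ≤ k₀) (hCw : 0 ≤ Cw) :
    k₀ * (Cw * (bJ + (M * h * L / ℓ ^ 2 + σ * L / ℓ) * ξ
        + τ * ℓ ^ 3 / (M * h + 1) * (M * h * L) / ℓ ^ 3)) * ℓ ^ 2 / L
      ≤ k₀ * Cw * (bJ * ℓ ^ 2 / L + (M * h / ℓ + σ) * ξ * ℓ + ℓ ^ 2 * τ) := by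
  have hp : 0 ≤ M * h := by positivity
  have h1 : 0 < M * h + 1 := by linarith
  have e : k₀ * (Cw * (bJ + (M * h * L / ℓ ^ 2 + σ * L / ℓ) * ξ
        + τ * ℓ ^ 3 / (M * h + 1) * (M * h * L) / ℓ ^ 3)) * ℓ ^ 2 / L
      = k₀ * Cw * (bJ * ℓ ^ 2 / L + (M * h / ℓ + σ) * ξ * ℓ
        + τ * ℓ ^ 3 / (M * h + 1) * (M * h) / ℓ) := by
    field_simp
  rw [e]
  have := corr_arith_delta hℓ hp hτ
  have hkc : 0 ≤ k₀ * Cw := by positivity
  exact mul_le_mul_of_nonneg_left (by linarith) hkc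

/-- arithmetic of the bound of `v`. -/
theorem corr_arith_V {Cp k₀ Cw p Bq bb t lx : ℝ} (hCp : 0 ≤ Cp) (hk : 0 ≤ k₀) (hCw : 0 ≤ Cw)
    (hp : 0 ≤ p) (hBq : 0 ≤ Bq) (hlx : 0 ≤ lx) (hbb : bb ≤ k₀ * Cw * Bq) (ht : t ≤ Bq) :
    Cp * (k₀ * p + bb + t) + Cp * lx ≤ Cp * (k₀ + k₀ * Cw + 2) * (p + Bq + lx) := by
  have e : Cp * (k₀ * p + bb + t) + Cp * lx = Cp * (k₀ * p + bb + t + lx) := by ring
  rw [e, mul_assoc]
  refine mul_le_mul_of_nonneg_left ?_ hCp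
  have q1 : 0 ≤ k₀ * Cw := mul_nonneg hk hCw
  have e2 : (k₀ + k₀ * Cw + 2) * (p + Bq + lx)
      = k₀ * p + k₀ * Cw * Bq + Bq + lx
        + (k₀ * Bq + k₀ * lx + k₀ * Cw * p + k₀ * Cw * lx + 2 * p + Bq + lx) := by ring
  rw [e2]
  have := mul_nonneg hk hBq
  have := mul_nonneg hk hlx
  have := mul_nonneg q1 hp
  have := mul_nonneg q1 hlx
  linarith

/-- arithmetic of the moment bound. -/
theorem corr_arith_M {Cm Cp Cw C₁ Bq L σ T qb dl : ℝ} (hCm : 0 ≤ Cm) (hCp : 0 ≤ Cp) (hCw : 0 ≤ Cw)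
    (hC₁ : 0 ≤ C₁) (hBq : 0 ≤ Bq) (hL : 0 ≤ L) (hσ : 0 ≤ σ) (hT : 0 ≤ T)
    (hqb : qb ≤ Cp * Cw * Bq * L) (hdl : dl ≤ Bq * L) :
    Cm * (qb + dl + σ * L * (C₁ * T)) ≤ (C₁ + Cm * (Cp * Cw + 1 + C₁)) * L * (Bq + σ * T) := by
  have r3 : Cm * (qb + dl + σ * L * (C₁ * T))
      ≤ Cm * (Cp * Cw * Bq * L + Bq * L + σ * L * (C₁ * T)) :=
    mul_le_mul_of_nonneg_left (by linarith) hCm
  refine r3.trans ?_
  have hσT : 0 ≤ σ * T := mul_nonneg hσ hT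
  have hcc : 0 ≤ Cp * Cw := mul_nonneg hCp hCw
  have e : (C₁ + Cm * (Cp * Cw + 1 + C₁)) * L * (Bq + σ * T)
      = Cm * (Cp * Cw * Bq * L + Bq * L + σ * L * (C₁ * T))
        + (C₁ * (L * (Bq + σ * T)) + Cm * (L * (C₁ * Bq)) + Cm * (L * ((Cp * Cw + 1) * (σ * T)))) := by
    ring
  rw [e]
  have a1 : 0 ≤ C₁ * (L * (Bq + σ * T)) := by positivity
  have a2 : 0 ≤ Cm * (L * (C₁ * Bq)) := by positivity
  have a3 : 0 ≤ Cm * (L * ((Cp * Cw + 1) * (σ * T))) := by positivity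
  linarith

/-- **the correction of a fit.** -/
theorem corr (m n s Q : ℕ) (hm : 1 ≤ m) (hQ : 1 ≤ Q) (hs : 3 * m + 9 ≤ s) (R₁ R₀ : ℝ)
    (h1 : 0 < R₁) (h0 : R₁ < R₀) :
    ∃ σ₀ C : ℝ, 0 < σ₀ ∧ 0 ≤ C ∧
    ∀ (μ : Measure (E (m + n))) (f Ξ : E m → E n) (x : E m) (ℓ h M bJ σ ξ τ : ℝ),
      0 < ℓ → 0 ≤ h → 0 ≤ M → 0 ≤ bJ → 0 ≤ σ → 0 ≤ ξ → 0 < τ →
      VIn s f → sAl (s - 1) ℓ f ≤ ENNReal.ofReal σ₀ →
      VIn (s - 2) Ξ → (∀ y ∈ Metric.ball x (R₀ * ℓ), mssOp f y = Ξ y) →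
      ENNReal.ofReal ℓ * vAl (s - 2) ℓ Ξ ≤ ENNReal.ofReal ξ →
      μ (ovr m n x (R₀ * ℓ)) ≤ ENNReal.ofReal (M * ℓ ^ m) →
      (∀ᵐ X ∂μ, X ∈ ovr m n x (R₀ * ℓ) → ‖zet f X‖ ≤ h) →
      JacB μ f x (R₀ * ℓ) ℓ bJ → MassB μ f Q x (R₀ * ℓ) ℓ σ →
      ∃ v ρ : E m → E n, VIn s v ∧ tsupport v ⊆ Metric.ball x (R₀ * ℓ) ∧ VIn (s - 2) ρ ∧
        (∀ y ∈ Metric.ball x (R₁ * ℓ), (pairCoef f f).op v y = - Ξ y + ρ y) ∧
        vAl (s - 2) ℓ ρ ≤ ENNReal.ofReal τ ∧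
        vAl s ℓ v ≤ ENNReal.ofReal (C * (M * h
          + (bJ * ℓ ^ 2 / ℓ ^ m + (M * h / ℓ + σ) * ξ * ℓ + ℓ ^ 2 * τ) + ℓ * ξ)) ∧
        ∀ (η : E m → E n) (A : ℝ), ContDiff ℝ (2 * m + 5 : ℕ) η →
          tsupport η ⊆ Metric.ball x (R₁ * ℓ) →
          (∀ j : ℕ, j ≤ 2 * m + 5 → ∀ y, ℓ ^ j * ‖iteratedFDeriv ℝ j η y‖ ≤ A) →
          |∫ X, ⟪zet f X - v (prH m n X), η (prH m n X)⟫ ∂μ|
            ≤ C * ℓ ^ m * ((bJ * ℓ ^ 2 / ℓ ^ m + (M * h / ℓ + σ) * ξ * ℓ + ℓ ^ 2 * τ)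
              + σ * (M * h + (bJ * ℓ ^ 2 / ℓ ^ m + (M * h / ℓ + σ) * ξ * ℓ + ℓ ^ 2 * τ) + ℓ * ξ))
              * A := by
  obtain ⟨σp, Cp, hσp, hCp, Hp⟩ := correction m n s (m + 4) hm (by omega) R₁ R₀ h1 h0
  obtain ⟨σs, Cs, hσs, hCs, Hs⟩ := pairCoef_small m n (s - 2) (by omega)
  obtain ⟨σw, Cw, hσw, hCw, Hw⟩ := weak_hyp m n s Q hQ (by omega) R₀ (h1.trans h0)
  obtain ⟨σm, Cm, hσm, hCm, Hm⟩ :=
    moment m n s Q (2 * m + 5) hQ (by omega) (by omega) R₁ R₀ h1 h0.le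
  have hQc : 0 < (Q : ℝ) * cH m := mul_pos (by exact_mod_cast hQ) (cH_pos m)
  set k₀ : ℝ := ((Q : ℝ) * cH m)⁻¹ with hk₀
  have hk : 0 < k₀ := inv_pos.2 hQc
  have hkQ : (Q : ℝ) * cH m * k₀ = 1 := mul_inv_cancel₀ hQc.ne'
  set σq : ℝ := min 1 (σp / (4 * (Cs + 1))) with hσq
  have hσq0 : 0 < σq := lt_min one_pos (by positivity)
  set C₁ : ℝ := Cp * (k₀ + k₀ * Cw + 2) with hC₁
  have hC₁0 : 0 ≤ C₁ := by positivity
  refine ⟨min (min σs σw) (min σm σq), C₁ + Cm * (Cp * Cw + 1 + C₁),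
    lt_min (lt_min hσs hσw) (lt_min hσm hσq0), by positivity, ?_⟩
  intro μ f Ξ x ℓ h M bJ σ ξ τ hℓ hh hM hbJ hσ hξ hτ hf hS hΞ hfΞ hΞb hμ hz hJ hMB
  set σ₀ : ℝ := min (min σs σw) (min σm σq) with hσ₀
  have hSs : sAl (s - 1) ℓ f ≤ ENNReal.ofReal σs :=
    hS.trans (ENNReal.ofReal_le_ofReal ((min_le_left _ _).trans (min_le_left _ _)))
  have hSw : sAl (s - 1) ℓ f ≤ ENNReal.ofReal σw :=
    hS.trans (ENNReal.ofReal_le_ofReal ((min_le_left _ _).trans (min_le_right _ _)))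
  have hSm : sAl (s - 1) ℓ f ≤ ENNReal.ofReal σm :=
    hS.trans (ENNReal.ofReal_le_ofReal ((min_le_right _ _).trans (min_le_left _ _)))
  have hSq : sAl (s - 1) ℓ f ≤ ENNReal.ofReal σq :=
    hS.trans (ENNReal.ofReal_le_ofReal ((min_le_right _ _).trans (min_le_right _ _)))
  have e2 : s - 2 + 2 = s := by omega
  have e1 : s - 2 + 1 = s - 1 := by omega
  have hL : 0 < ℓ ^ m := by positivity
  have hp : 0 ≤ M * h := by positivity
  -- the coefficients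
  obtain ⟨hreg, hsize⟩ := Hs f f ℓ hℓ (by rw [e2]; exact hf) (by rw [e2]; exact hf)
    (by rw [e1]; exact hSs) (by rw [e1]; exact hSs)
  have hsize' : (pairCoef f f).sizel (s - 2) ℓ ≤ ENNReal.ofReal σp := by
    refine hsize.trans ?_
    rw [e1]
    calc ENNReal.ofReal Cs * (sAl (s - 1) ℓ f + sAl (s - 1) ℓ f) ^ 2
        ≤ ENNReal.ofReal Cs * (ENNReal.ofReal σq + ENNReal.ofReal σq) ^ 2 := by gcongr
      _ = ENNReal.ofReal (Cs * (σq + σq) ^ 2) := by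
          rw [← ENNReal.ofReal_add hσq0.le hσq0.le, ← ENNReal.ofReal_pow (by positivity),
            ← ENNReal.ofReal_mul hCs]
      _ ≤ ENNReal.ofReal σp := by
          refine ENNReal.ofReal_le_ofReal ?_
          have a1 : σq ≤ 1 := min_le_left _ _
          have a2 : σq ≤ σp / (4 * (Cs + 1)) := min_le_right _ _
          have a3 : σq * (4 * (Cs + 1)) ≤ σp := by
            rwa [le_div_iff₀ (by positivity)] at a2
          have a4 : σq ^ 2 ≤ σq := by nlinarith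
          have a5 : Cs * σq ^ 2 ≤ Cs * σq := mul_le_mul_of_nonneg_left a4 hCs
          nlinarith
  -- the mollified first moment
  set δ : ℝ := τ * ℓ ^ 3 / (M * h + 1) with hδ
  have hδ0 : 0 < δ := by positivity
  let φ : ContDiffBump (0 : E m) := ⟨δ / 2, δ, by positivity, by linarith⟩
  have hφ : φ.rOut = δ := rfl
  have hfc : Continuous f := hf.continuous
  have hf2 : ContDiff ℝ 2 f := hf.contDiff.of_le (by exact_mod_cast (by omega : 2 ≤ s))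
  set S := Sg f x (R₀ * ℓ) h with hSdef
  have hSm' : MeasurableSet S := measurableSet_Sg hfc x (R₀ * ℓ) h
  have : IsFiniteMeasure (μ.restrict S) := ⟨by
    rw [Measure.restrict_apply_univ]
    exact ((measure_mono Set.inter_subset_left).trans hμ).trans_lt ENNReal.ofReal_lt_top⟩
  have hcf : Integrable (cf f k₀) (μ.restrict S) := integrable_cf hf2 hμ
  set u := uu φ μ f x (R₀ * ℓ) h k₀ with hu
  have huS : ContDiff ℝ ∞ u := contDiff_mol φ _ (prH m n).continuous.measurable hcf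
  have huc : HasCompactSupport u := by
    have hsub : tsupport u ⊆ Metric.closedBall x (R₀ * ℓ + φ.rOut) := by
      refine tsupport_mol_subset_ae φ _ ?_
      refine (ae_restrict_iff' hSm').2 (Filter.Eventually.of_forall fun X hX hn => ?_)
      exfalso
      apply hn
      have : ‖prH m n X - x‖ < R₀ * ℓ := hX.1
      rw [Metric.mem_closedBall, dist_eq_norm]
      exact this.le
    exact (isCompact_closedBall _ _).of_isClosed_subset (isClosed_tsupport _) hsub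
  have hua : ∫ y, ‖u y‖ ≤ k₀ * h * (M * ℓ ^ m) :=
    (integral_norm_mol_le φ _ (prH m n).continuous.measurable hcf).trans
      (integral_norm_cf_le hf2 hh hk.le (by positivity) hμ)
  have hweak := Hw μ f Ξ x ℓ h M bJ σ ξ hℓ hh hM hbJ hσ hξ hf hSw hΞ hfΞ hΞb hμ hz hJ hMB φ
  rw [hφ] at hweak
  set b : ℝ := k₀ * (Cw * (bJ + (M * h * ℓ ^ m / ℓ ^ 2 + σ * ℓ ^ m / ℓ) * ξ
    + δ * (M * h * ℓ ^ m) / ℓ ^ 3)) with hb
  set Bq : ℝ := bJ * ℓ ^ 2 / ℓ ^ m + (M * h / ℓ + σ) * ξ * ℓ + ℓ ^ 2 * τ with hBq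
  have hBq0 : 0 ≤ Bq := by positivity
  have hbB : b * ℓ ^ 2 / ℓ ^ m ≤ k₀ * Cw * Bq := corr_arith_b hℓ hL hM hh hτ hk.le hCw
  have hτB : ℓ ^ 2 * τ ≤ Bq := by
    have : 0 ≤ bJ * ℓ ^ 2 / ℓ ^ m + (M * h / ℓ + σ) * ξ * ℓ := by positivity
    rw [hBq]; linarith
  obtain ⟨v, ρ, hv, hvs, hρ, heq, hρτ, hvb, hwk⟩ :=
    Hp x ℓ hℓ (pairCoef f f) hreg hsize' u (fun y => - Ξ y) (k₀ * h * (M * ℓ ^ m)) b τ hτ huS huc
      hΞ.neg hua hweak
  set V : ℝ := C₁ * (M * h + Bq + ℓ * ξ) with hV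
  have hV0 : 0 ≤ V := by positivity
  have hvV : vAl s ℓ v ≤ ENNReal.ofReal V := by
    refine hvb.trans ?_
    rw [vAl_neg]
    have t1 : ENNReal.ofReal (Cp * ℓ ^ 2) * vAl (s - 2) ℓ Ξ ≤ ENNReal.ofReal (Cp * ℓ * ξ) := by
      have : ENNReal.ofReal (Cp * ℓ ^ 2) = ENNReal.ofReal (Cp * ℓ) * ENNReal.ofReal ℓ := by
        rw [← ENNReal.ofReal_mul (by positivity)]; congr 1; ring
      rw [this, mul_assoc, ENNReal.ofReal_mul (q := ξ) (by positivity)]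
      gcongr
    refine (add_le_add le_rfl t1).trans ?_
    rw [← ENNReal.ofReal_add (by
      have : 0 ≤ b := hweak.nonneg
      positivity) (by positivity)]
    refine ENNReal.ofReal_le_ofReal ?_
    have t2 : k₀ * h * (M * ℓ ^ m) / ℓ ^ m = k₀ * (M * h) := by field_simp
    rw [t2, hV, hC₁, mul_assoc Cp ℓ ξ]
    exact corr_arith_V hCp hk.le hCw hp hBq0 (by positivity) hbB hτB
  refine ⟨v, ρ, hv, hvs, hρ, heq, hρτ, ?_, ?_⟩
  · refine hvV.trans (ENNReal.ofReal_le_ofReal ?_)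
    rw [hV]
    refine mul_le_mul_of_nonneg_right ?_ (by positivity)
    have : 0 ≤ Cm * (Cp * Cw + 1 + C₁) := by positivity
    linarith
  · intro η A hη hηs hηb
    have hA : 0 ≤ A := by
      have := hηb 0 (Nat.zero_le _) x
      exact le_trans (by positivity) this
    have e3 : m + 4 + m + 1 = 2 * m + 5 := by omega
    rw [e3] at hwk
    have key := Hm μ f v x ℓ h M σ (Cp * (b * ℓ ^ 2)) V hℓ hh hM hσ hV0 hf hSm hμ hz hMB
      (hv.mono (by omega)) ((vAl_mono (by omega) hℓ.le v).trans hvV) φ hwk η A hη hηs hηb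
    rw [hφ] at key
    refine key.trans ?_
    refine mul_le_mul_of_nonneg_right ?_ hA
    have r1 : (Q : ℝ) * cH m * (Cp * (b * ℓ ^ 2)) ≤ Cp * Cw * Bq * ℓ ^ m := by
      have : b * ℓ ^ 2 ≤ k₀ * Cw * Bq * ℓ ^ m := by
        rwa [div_le_iff₀ hL] at hbB
      calc (Q : ℝ) * cH m * (Cp * (b * ℓ ^ 2))
          ≤ (Q : ℝ) * cH m * (Cp * (k₀ * Cw * Bq * ℓ ^ m)) := by gcongr
        _ = ((Q : ℝ) * cH m * k₀) * (Cp * Cw * Bq * ℓ ^ m) := by ring
        _ = Cp * Cw * Bq * ℓ ^ m := by rw [hkQ, one_mul]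
    have r2 : δ * (M * h * ℓ ^ m) / ℓ ≤ Bq * ℓ ^ m := by
      have := corr_arith_delta hℓ hp hτ
      have e : δ * (M * h * ℓ ^ m) / ℓ = (δ * (M * h) / ℓ) * ℓ ^ m := by ring
      rw [e]
      exact mul_le_mul_of_nonneg_right (this.trans hτB) hL.le
    rw [hV]
    exact corr_arith_M hCm hCp hCw hC₁0 hBq0 hL.le hσ (by positivity) r1 r2

end Claimed.Agent.R322.Fit.Corr
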