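import Claimed.Agent.R322.Fit.Corr.Dens

/-!
# Row 322, Fit/Corr/Rho: multiplication of tests by `√g` and `1/√g`   (helper281; sorry-free glue from `Dens.lean`)
-/

set_option autoImplicit false

open scoped ENNReal ContDiff Topology RealInnerProductSpace
open MeasureTheory

namespace Claimed.Agent.R322.Fit.Corr

open Claimed.Agent.R322.Tube Claimed.Agent.R322.Fit.Fits

variable {m n : ℕ}

/-- **multiplication of tests by `√g` and `1/√g`.** -/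
theorem rho_bounds (m n K : ℕ) : ∃ σ₀ C : ℝ, 0 < σ₀ ∧ 1 ≤ C ∧ ∀ (f : E m → E n) (ℓ : ℝ), 0 < ℓ →
    VIn (K + 1) f → sAl K ℓ f ≤ ENNReal.ofReal σ₀ →
    ContDiff ℝ K (vd f) ∧ ContDiff ℝ K (fun y => (vd f y)⁻¹) ∧
    ∀ (ζ : E m → E n) (A : ℝ), ContDiff ℝ K ζ →
      (∀ j : ℕ, j ≤ K → ∀ y, ℓ ^ j * ‖iteratedFDeriv ℝ j ζ y‖ ≤ A) →
      ∀ j : ℕ, j ≤ K → ∀ y, ℓ ^ j * ‖iteratedFDeriv ℝ j (fun y => vd f y • ζ y) y‖ ≤ C * A ∧
        ℓ ^ j * ‖iteratedFDeriv ℝ j (fun y => (vd f y)⁻¹ • ζ y) y‖ ≤ C * A := by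
  obtain ⟨C, hC, H⟩ := exists_vd_bounds m n K
  refine ⟨((2 * Real.pi) ^ K)⁻¹, 2 ^ K * C, by positivity, ?_, ?_⟩
  · have : (1 : ℝ) ≤ 2 ^ K := one_le_pow₀ (by norm_num)
    nlinarith
  intro f ℓ hℓ hf hS
  have hfc : ContDiff ℝ (K + 1 : ℕ) f := hf.contDiff
  have h1 : ContDiff ℝ K (vd f) := contDiff_vd hfc
  have h2 : ContDiff ℝ K (fun y => (vd f y)⁻¹) :=
    h1.inv fun y => (lt_of_lt_of_le one_pos (one_le_vd f y)).ne'
  refine ⟨h1, h2, ?_⟩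
  intro ζ A hζ hb j hj y
  have hB := H f ℓ hℓ hfc (slope_bounds hℓ hf hS)
  exact ⟨smul_test_bound hℓ h1 hζ (fun j hj y => (hB j hj y).1) hb j hj y,
    smul_test_bound hℓ h2 hζ (fun j hj y => (hB j hj y).2) hb j hj y⟩

end Claimed.Agent.R322.Fit.Corr
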